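import Vale.Agent.P144.MathlibUsed
import Vale.Agent.P144.Defs

set_option linter.all false

section

section

namespace Vale.Agent.P144

open Finset

theorem dsq_comm (u v : Site) : dsq u v = dsq v u := by unfold dsq; ring

theorem dsq_self (u : Site) : dsq u u = 0 := by simp [dsq]

theorem pair_eq {u v u' v' : Site} (h : ({u, v} : Finset Site) = {u', v'}) :
    (u = u' ∧ v = v') ∨ (u = v' ∧ v = u') := by
  have h' : ({u, v} : Set Site) = {u', v'} := by
    have := congrArg (fun A : Finset Site => (A : Set Site)) h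
    simpa using this
  exact Set.pair_eq_pair_iff.1 h'

theorem pair_dsq {u v u' v' : Site} (h : ({u, v} : Finset Site) = {u', v'}) :
    dsq u v = dsq u' v' := by
  rcases pair_eq h with ⟨rfl, rfl⟩ | ⟨rfl, rfl⟩
  · rfl
  · exact dsq_comm _ _

/-- knight-move pairs -/
def IsKnight (A : Finset Site) : Prop := ∃ u v : Site, dsq u v = 5 ∧ A = {u, v}

open Classical in
/-- the knight-move potential -/
noncomputable def Vk (A : Finset Site) : ℝ := if IsKnight A then 1 else 0

/-- pair coupling -/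
noncomputable def cpl (J lam : ℝ) (u v : Site) : ℝ :=
  if dsq u v = 1 then J else if dsq u v = 5 then lam else 0

theorem cpl_comm (J lam : ℝ) (u v : Site) : cpl J lam u v = cpl J lam v u := by
  unfold cpl; rw [dsq_comm]

theorem cpl_self (J lam : ℝ) (u : Site) : cpl J lam u u = 0 := by
  simp [cpl, dsq_self]

theorem cpl_nonneg {J lam : ℝ} (hJ : 0 ≤ J) (hl : 0 ≤ lam) (u v : Site) : 0 ≤ cpl J lam u v := by
  unfold cpl; split_ifs <;> first | assumption | exact le_rfl

open Classical in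
/-- the total interaction of a set -/
noncomputable def Phi (J lam : ℝ) (V : Finset Site → ℝ) (A : Finset Site) : ℝ :=
  (if IsEdge A then J else 0) + lam * V A

theorem isEdge_pair (u v : Site) : IsEdge {u, v} ↔ dsq u v = 1 := by
  constructor
  · rintro ⟨u', v', h1, h2⟩
    rw [pair_dsq h2, h1]
  · intro h
    exact ⟨u, v, h, rfl⟩

theorem isKnight_pair (u v : Site) : IsKnight {u, v} ↔ dsq u v = 5 := by
  constructor
  · rintro ⟨u', v', h1, h2⟩
    rw [pair_dsq h2, h1]
  · intro h
    exact ⟨u, v, h, rfl⟩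

theorem Phi_pair (J lam : ℝ) (u v : Site) : Phi J lam Vk {u, v} = cpl J lam u v := by
  unfold Phi cpl Vk
  by_cases h1 : dsq u v = 1
  · have h5 : ¬ dsq u v = 5 := by omega
    simp [isEdge_pair, isKnight_pair, h1]
  · by_cases h5 : dsq u v = 5
    · simp [isEdge_pair, isKnight_pair, h5]
    · simp [isEdge_pair, isKnight_pair, h1, h5]

theorem Phi_pair0 (J : ℝ) (u v : Site) : Phi J 0 (fun _ => 0) {u, v} = cpl J 0 u v := by
  unfold Phi cpl
  by_cases h1 : dsq u v = 1
  · simp [isEdge_pair, h1]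
  · simp [isEdge_pair, h1]

theorem Phi_supp {J lam : ℝ} {A : Finset Site} (h : Phi J lam Vk A ≠ 0) :
    ∃ u v, u ≠ v ∧ dsq u v ≤ 5 ∧ A = {u, v} := by
  unfold Phi Vk at h
  by_cases h1 : IsEdge A
  · obtain ⟨u, v, hd, rfl⟩ := h1
    refine ⟨u, v, ?_, by omega, rfl⟩
    rintro rfl
    rw [dsq_self] at hd; omega
  · by_cases h2 : IsKnight A
    · obtain ⟨u, v, hd, rfl⟩ := h2
      refine ⟨u, v, ?_, by omega, rfl⟩
      rintro rfl
      rw [dsq_self] at hd; omega
    · simp [h1, h2] at h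

theorem Phi_supp0 {J : ℝ} {A : Finset Site} (h : Phi J 0 (fun _ => 0) A ≠ 0) :
    ∃ u v, u ≠ v ∧ dsq u v ≤ 5 ∧ A = {u, v} := by
  unfold Phi at h
  by_cases h1 : IsEdge A
  · obtain ⟨u, v, hd, rfl⟩ := h1
    refine ⟨u, v, ?_, by omega, rfl⟩
    rintro rfl
    rw [dsq_self] at hd; omega
  · simp [h1] at h

/-- invariance of the knight potential under distance-preserving bijections -/
theorem Vk_image (f : Site ≃ Site) (hf : ∀ u v, dsq (f u) (f v) = dsq u v) (A : Finset Site) :
    Vk (A.image f) = Vk A := by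
  unfold Vk
  congr 1
  refine propext ⟨?_, ?_⟩
  · rintro ⟨u, v, hd, hA⟩
    refine ⟨f.symm u, f.symm v, ?_, ?_⟩
    · rw [← hf]; simpa using hd
    · have : (A.image f).image f.symm = ({u, v} : Finset Site).image f.symm := by rw [hA]
      rw [Finset.image_image] at this
      simpa using this
  · rintro ⟨u, v, hd, rfl⟩
    exact ⟨f u, f v, by rw [hf, hd], by simp⟩

theorem Vk_potential : IsPotential Vk where
  empty := by
    unfold Vk
    rw [if_neg]
    rintro ⟨u, v, _, h⟩
    have : u ∈ (∅ : Finset Site) := by rw [h]; simp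
    simp at this
  even A hA := by
    unfold Vk at hA
    have h : IsKnight A := by by_contra h; simp [h] at hA
    obtain ⟨u, v, hd, rfl⟩ := h
    have hne : u ≠ v := by rintro rfl; rw [dsq_self] at hd; omega
    rw [Finset.card_pair hne]
    exact even_two
  range := by
    refine ⟨5, fun A hA x hx y hy => ?_⟩
    unfold Vk at hA
    have h : IsKnight A := by by_contra h; simp [h] at hA
    obtain ⟨u, v, hd, rfl⟩ := h
    simp only [Finset.mem_insert, Finset.mem_singleton] at hx hy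
    rcases hx with rfl | rfl <;> rcases hy with rfl | rfl
    · rw [dsq_self]; norm_num
    · rw [hd]
    · rw [dsq_comm, hd]
    · rw [dsq_self]; norm_num
  translate t A := Vk_image (Equiv.addRight t) (fun u v => by simp [dsq]) A
  rotate A := by
    let f : Site ≃ Site := ⟨fun x => (-x.2, x.1), fun x => (x.2, -x.1), fun x => by simp,
      fun x => by simp⟩
    exact Vk_image f (fun u v => by simp only [dsq, f, Equiv.coe_fn_mk]; ring) A
  reflect A := by
    let f : Site ≃ Site := ⟨fun x => (x.1, -x.2), fun x => (x.1, -x.2), fun x => by simp,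
      fun x => by simp⟩
    exact Vk_image f (fun u v => by simp only [dsq, f, Equiv.coe_fn_mk]; ring) A

/-- sum over ordered pairs versus sum over two-point sets -/
theorem pair_sum (W : Finset Site) (g : Finset Site → ℝ) :
    ∑ p ∈ W.offDiag, g {p.1, p.2} = 2 * ∑ A ∈ W.powersetCard 2, g A := by
  have hmaps : ∀ p ∈ W.offDiag, ({p.1, p.2} : Finset Site) ∈ W.powersetCard 2 := by
    intro p hp
    rw [Finset.mem_offDiag] at hp
    rw [Finset.mem_powersetCard]
    refine ⟨?_, Finset.card_pair hp.2.2⟩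
    intro x hx
    simp only [Finset.mem_insert, Finset.mem_singleton] at hx
    rcases hx with rfl | rfl
    · exact hp.1
    · exact hp.2.1
  rw [← Finset.sum_fiberwise_of_maps_to hmaps, Finset.mul_sum]
  refine Finset.sum_congr rfl fun A hA => ?_
  rw [Finset.mem_powersetCard, Finset.card_eq_two] at hA
  obtain ⟨hAW, u, v, hne, rfl⟩ := hA
  have hf : ({p ∈ W.offDiag | ({p.1, p.2} : Finset Site) = {u, v}} : Finset (Site × Site))
      = {(u, v), (v, u)} := by
    ext p
    simp only [Finset.mem_filter, Finset.mem_offDiag, Finset.mem_insert, Finset.mem_singleton]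
    constructor
    · rintro ⟨_, h⟩
      rcases pair_eq h with ⟨h1, h2⟩ | ⟨h1, h2⟩
      · left; exact Prod.ext h1 h2
      · right; exact Prod.ext h1 h2
    · rintro (rfl | rfl)
      · exact ⟨⟨hAW (by simp), hAW (by simp), hne⟩, rfl⟩
      · exact ⟨⟨hAW (by simp), hAW (by simp), hne.symm⟩, Finset.pair_comm _ _⟩
  rw [hf, Finset.sum_pair (by intro h; exact hne (Prod.ext_iff.1 h).1)]
  simp only
  rw [Finset.pair_comm v u]
  ring

end Vale.Agent.P144
end
end

section

section

namespace Vale.Agent.P144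

open Finset

theorem sp_true : sp true = 1 := rfl
theorem sp_false : sp false = -1 := rfl

theorem sp_sq (b : Bool) : sp b * sp b = 1 := by cases b <;> norm_num [sp]

theorem sp_not (b : Bool) : sp (!b) = - sp b := by cases b <;> norm_num [sp]

theorem sp_mono {a b : Bool} (h : a ≤ b) : sp a ≤ sp b := by
  revert h; cases a <;> cases b <;> simp [sp]

theorem sp_le_one (b : Bool) : sp b ≤ 1 := by cases b <;> norm_num [sp]
theorem abs_sp (b : Bool) : |sp b| = 1 := by cases b <;> norm_num [sp]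

variable {ι : Type*} [Fintype ι] [DecidableEq ι]

/-- exponent of the Boltzmann weight: pair energy plus field energy -/
noncomputable def ex (K : ι → ι → ℝ) (h : ι → ℝ) (s : ι → Bool) : ℝ :=
  ∑ i, ∑ j, K i j * (sp (s i) * sp (s j)) + ∑ i, h i * sp (s i)

/-- Boltzmann weight -/
noncomputable def wt (K : ι → ι → ℝ) (h : ι → ℝ) (s : ι → Bool) : ℝ :=
  Real.exp (ex K h s)

/-- Gibbs expectation -/
noncomputable def ev (K : ι → ι → ℝ) (h : ι → ℝ) (f : (ι → Bool) → ℝ) : ℝ :=
  (∑ s, f s * wt K h s) / ∑ s, wt K h s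

omit [DecidableEq ι] in
theorem wt_pos (K : ι → ι → ℝ) (h : ι → ℝ) (s : ι → Bool) : 0 < wt K h s := Real.exp_pos _

theorem Z_pos (K : ι → ι → ℝ) (h : ι → ℝ) : 0 < ∑ s, wt K h s :=
  Finset.sum_pos (fun s _ => wt_pos K h s) ⟨fun _ => true, Finset.mem_univ _⟩

section basic

variable (K : ι → ι → ℝ) (h : ι → ℝ)

theorem ev_add (f g : (ι → Bool) → ℝ) : ev K h (fun s => f s + g s) = ev K h f + ev K h g := by
  simp only [ev, add_mul, Finset.sum_add_distrib, add_div]

theorem ev_sub (f g : (ι → Bool) → ℝ) : ev K h (fun s => f s - g s) = ev K h f - ev K h g := by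
  simp only [ev, sub_mul, Finset.sum_sub_distrib, sub_div]

theorem ev_const_mul (c : ℝ) (f : (ι → Bool) → ℝ) :
    ev K h (fun s => c * f s) = c * ev K h f := by
  simp only [ev, mul_assoc, ← Finset.mul_sum, mul_div_assoc]

theorem ev_const (c : ℝ) : ev K h (fun _ => c) = c := by
  have := (Z_pos K h).ne'
  simp only [ev, ← Finset.mul_sum]
  field_simp

theorem ev_sum {κ : Type*} (T : Finset κ) (f : κ → (ι → Bool) → ℝ) :
    ev K h (fun s => ∑ i ∈ T, f i s) = ∑ i ∈ T, ev K h (f i) := by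
  classical
  induction T using Finset.induction_on with
  | empty => simp only [ev, sum_empty, zero_mul, sum_const_zero, zero_div]
  | insert a T ha ih => simp only [Finset.sum_insert ha, ev_add, ih]

end basic

/-- covariance -/
noncomputable def cov (K : ι → ι → ℝ) (h : ι → ℝ) (f g : (ι → Bool) → ℝ) : ℝ :=
  ev K h (fun s => f s * g s) - ev K h f * ev K h g

section fkg

theorem pair_super (a b c d : Bool) :
    sp a * sp c + sp b * sp d ≤ sp (a ⊓ b) * sp (c ⊓ d) + sp (a ⊔ b) * sp (c ⊔ d) := by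
  cases a <;> cases b <;> cases c <;> cases d <;> norm_num [sp]

theorem single_mod (a b : Bool) : sp a + sp b = sp (a ⊓ b) + sp (a ⊔ b) := by
  cases a <;> cases b <;> norm_num [sp]

omit [DecidableEq ι] in
theorem ex_super {K : ι → ι → ℝ} (hK : ∀ i j, 0 ≤ K i j) (h : ι → ℝ) (a b : ι → Bool) :
    ex K h a + ex K h b ≤ ex K h (a ⊓ b) + ex K h (a ⊔ b) := by
  have h1 : ∑ i, ∑ j, K i j * (sp (a i) * sp (a j)) + ∑ i, ∑ j, K i j * (sp (b i) * sp (b j))
      ≤ ∑ i, ∑ j, K i j * (sp ((a ⊓ b) i) * sp ((a ⊓ b) j))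
        + ∑ i, ∑ j, K i j * (sp ((a ⊔ b) i) * sp ((a ⊔ b) j)) := by
    rw [← Finset.sum_add_distrib, ← Finset.sum_add_distrib]
    refine Finset.sum_le_sum fun i _ => ?_
    rw [← Finset.sum_add_distrib, ← Finset.sum_add_distrib]
    refine Finset.sum_le_sum fun j _ => ?_
    rw [← mul_add, ← mul_add]
    exact mul_le_mul_of_nonneg_left (pair_super _ _ _ _) (hK i j)
  have h2 : ∑ i, h i * sp (a i) + ∑ i, h i * sp (b i)
      = ∑ i, h i * sp ((a ⊓ b) i) + ∑ i, h i * sp ((a ⊔ b) i) := by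
    rw [← Finset.sum_add_distrib, ← Finset.sum_add_distrib]
    refine Finset.sum_congr rfl fun i _ => ?_
    rw [← mul_add, ← mul_add]
    congr 1
    exact single_mod _ _
  unfold ex
  linarith

theorem cov_add_const_left (K : ι → ι → ℝ) (h : ι → ℝ) (f g : (ι → Bool) → ℝ) (a : ℝ) :
    cov K h (fun s => f s + a) g = cov K h f g := by
  unfold cov
  have : (fun s => (f s + a) * g s) = fun s => f s * g s + a * g s := by
    funext s; ring
  rw [this, ev_add, ev_const_mul, ev_add, ev_const]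
  ring

theorem cov_add_const_right (K : ι → ι → ℝ) (h : ι → ℝ) (f g : (ι → Bool) → ℝ) (a : ℝ) :
    cov K h f (fun s => g s + a) = cov K h f g := by
  unfold cov
  have : (fun s => f s * (g s + a)) = fun s => f s * g s + a * f s := by
    funext s; ring
  rw [this, ev_add, ev_const_mul, ev_add, ev_const]
  ring

theorem cov_nonneg_aux {K : ι → ι → ℝ} (hK : ∀ i j, 0 ≤ K i j) (h : ι → ℝ)
    {f g : (ι → Bool) → ℝ} (hf0 : 0 ≤ f) (hg0 : 0 ≤ g) (hf : Monotone f) (hg : Monotone g) :
    0 ≤ cov K h f g := by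
  have key := fkg (μ := wt K h) (f := f) (g := g) (fun s => (wt_pos K h s).le) hf0 hg0 hf hg
    (fun a b => by
      unfold wt
      rw [← Real.exp_add, ← Real.exp_add]
      exact Real.exp_le_exp.2 (ex_super hK h a b))
  have hZ := Z_pos K h
  unfold cov ev
  rw [div_mul_div_comm, sub_nonneg, div_le_div_iff₀ (mul_pos hZ hZ) hZ]
  have e1 : ∑ s, f s * wt K h s = ∑ s, wt K h s * f s :=
    Finset.sum_congr rfl fun s _ => mul_comm _ _
  have e2 : ∑ s, g s * wt K h s = ∑ s, wt K h s * g s :=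
    Finset.sum_congr rfl fun s _ => mul_comm _ _
  have e3 : ∑ s, f s * g s * wt K h s = ∑ s, wt K h s * (f s * g s) :=
    Finset.sum_congr rfl fun s _ => mul_comm _ _
  rw [e1, e2, e3]
  nlinarith only [key, hZ]

theorem cov_nonneg {K : ι → ι → ℝ} (hK : ∀ i j, 0 ≤ K i j) (h : ι → ℝ)
    {f g : (ι → Bool) → ℝ} (hf : Monotone f) (hg : Monotone g) :
    0 ≤ cov K h f g := by
  rw [← cov_add_const_left K h f g (∑ s, |f s|),
    ← cov_add_const_right K h _ g (∑ s, |g s|)]
  refine cov_nonneg_aux hK h ?_ ?_ (fun s t hst => add_le_add_left (hf hst) _)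
    (fun s t hst => add_le_add_left (hg hst) _)
  · intro s
    have h1 : |f s| ≤ ∑ s, |f s| :=
      Finset.single_le_sum (f := fun s => |f s|) (fun _ _ => abs_nonneg _) (Finset.mem_univ s)
    have h2 := neg_abs_le (f s)
    simp only [Pi.zero_apply]
    linarith
  · intro s
    have h1 : |g s| ≤ ∑ s, |g s| :=
      Finset.single_le_sum (f := fun s => |g s|) (fun _ _ => abs_nonneg _) (Finset.mem_univ s)
    have h2 := neg_abs_le (g s)
    simp only [Pi.zero_apply]
    linarith

end fkg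

/-- the spin at `i` as an observable -/
def sg (i : ι) : (ι → Bool) → ℝ := fun s => sp (s i)

omit [Fintype ι] [DecidableEq ι] in
theorem sg_mono (i : ι) : Monotone (sg i) := fun _ _ hst => sp_mono (hst i)

section deriv

omit [DecidableEq ι] in
theorem ex_line (K : ι → ι → ℝ) (h w : ι → ℝ) (t : ℝ) (s : ι → Bool) :
    ex K (fun i => h i + t * w i) s = ex K h s + t * ∑ i, w i * sp (s i) := by
  have h1 : ∑ i, (h i + t * w i) * sp (s i) = ∑ i, h i * sp (s i) + t * ∑ i, w i * sp (s i) := by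
    rw [Finset.mul_sum, ← Finset.sum_add_distrib]
    exact Finset.sum_congr rfl fun i _ => by ring
  unfold ex
  rw [h1]
  ring

omit [DecidableEq ι] in
theorem hasDerivAt_wt (K : ι → ι → ℝ) (h w : ι → ℝ) (t : ℝ) (s : ι → Bool) :
    HasDerivAt (fun t : ℝ => wt K (fun i => h i + t * w i) s)
      ((∑ i, w i * sp (s i)) * wt K (fun i => h i + t * w i) s) t := by
  have h1 : HasDerivAt (fun t : ℝ => ex K (fun i => h i + t * w i) s)
      (∑ i, w i * sp (s i)) t := by
    have h0 : (fun t : ℝ => ex K (fun i => h i + t * w i) s)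
        = fun t : ℝ => ex K h s + t * ∑ i, w i * sp (s i) := by
      funext t; exact ex_line K h w t s
    rw [h0]
    have := ((hasDerivAt_id t).mul_const (∑ i, w i * sp (s i))).const_add (ex K h s)
    simpa only [hasDerivAt_const_add_iff, id_eq, one_mul] using this
  have h2 := h1.exp
  have h3 : Real.exp (ex K (fun i => h i + t * w i) s) * ∑ i, w i * sp (s i)
      = (∑ i, w i * sp (s i)) * wt K (fun i => h i + t * w i) s := by
    unfold wt; ring
  rw [← h3]
  exact h2

theorem hasDerivAt_ev (K : ι → ι → ℝ) (h w : ι → ℝ) (f : (ι → Bool) → ℝ) (t : ℝ) :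
    HasDerivAt (fun t : ℝ => ev K (fun i => h i + t * w i) f)
      (cov K (fun i => h i + t * w i) f (fun s => ∑ i, w i * sp (s i))) t := by
  have hN : HasDerivAt (fun t : ℝ => ∑ s, f s * wt K (fun i => h i + t * w i) s)
      (∑ s, f s * ((∑ i, w i * sp (s i)) * wt K (fun i => h i + t * w i) s)) t :=
    HasDerivAt.fun_sum fun s _ => (hasDerivAt_wt K h w t s).const_mul (f s)
  have hZ : HasDerivAt (fun t : ℝ => ∑ s, wt K (fun i => h i + t * w i) s)
      (∑ s, ((∑ i, w i * sp (s i)) * wt K (fun i => h i + t * w i) s)) t :=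
    HasDerivAt.fun_sum fun s _ => hasDerivAt_wt K h w t s
  have hZ0 := (Z_pos K (fun i => h i + t * w i)).ne'
  have hd := hN.fun_div hZ hZ0
  refine hd.congr_deriv ?_
  unfold cov ev
  simp only [mul_assoc]
  field_simp

end deriv

end Vale.Agent.P144
end
end

section

section

namespace Vale.Agent.P144

open Finset

variable {ι : Type*} [Fintype ι] [DecidableEq ι]

theorem cov_linear (K : ι → ι → ℝ) (h : ι → ℝ) (f : (ι → Bool) → ℝ) (w : ι → ℝ) :
    cov K h f (fun s => ∑ i, w i * sp (s i)) = ∑ i, w i * cov K h f (sg i) := by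
  unfold cov
  have h1 : (fun s : ι → Bool => f s * ∑ i, w i * sp (s i))
      = fun s => ∑ i, (w i * (f s * sg i s)) := by
    funext s
    rw [Finset.mul_sum]
    exact Finset.sum_congr rfl fun i _ => by unfold sg; ring
  have h2 : (fun s : ι → Bool => ∑ i, w i * sp (s i)) = fun s => ∑ i, (w i * sg i s) := rfl
  rw [h1, h2, ev_sum, ev_sum, Finset.mul_sum, ← Finset.sum_sub_distrib]
  refine Finset.sum_congr rfl fun i _ => ?_
  rw [ev_const_mul, ev_const_mul]
  ring

/-- Monotonicity of an increasing observable along a field direction whose covariance is `≥ 0`. -/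
theorem ev_line_mono {K : ι → ι → ℝ} {h w : ι → ℝ} {f : (ι → Bool) → ℝ}
    (hc : ∀ t ∈ Set.Icc (0:ℝ) 1,
      0 ≤ cov K (fun i => h i + t * w i) f (fun s => ∑ i, w i * sp (s i))) :
    ev K h f ≤ ev K (fun i => h i + w i) f := by
  have hmono : MonotoneOn (fun t : ℝ => ev K (fun i => h i + t * w i) f) (Set.Icc (0:ℝ) 1) := by
    refine monotoneOn_of_deriv_nonneg (convex_Icc 0 1) ?_ ?_ ?_
    · exact fun t _ => (hasDerivAt_ev K h w f t).continuousAt.continuousWithinAt
    · exact fun t _ => (hasDerivAt_ev K h w f t).differentiableAt.differentiableWithinAt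
    · intro t ht
      rw [(hasDerivAt_ev K h w f t).deriv]
      exact hc t (interior_subset ht)
  have := hmono (Set.left_mem_Icc.2 zero_le_one) (Set.right_mem_Icc.2 zero_le_one) zero_le_one
  simpa using this

theorem ev_mono_field {K : ι → ι → ℝ} (hK : ∀ i j, 0 ≤ K i j) {f : (ι → Bool) → ℝ}
    (hf : Monotone f) {h h' : ι → ℝ} (hh : ∀ i, h i ≤ h' i) :
    ev K h f ≤ ev K h' f := by
  have h1 : ev K h f ≤ ev K (fun i => h i + (h' i - h i)) f := by
    refine ev_line_mono fun t _ => ?_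
    rw [cov_linear]
    exact Finset.sum_nonneg fun i _ =>
      mul_nonneg (sub_nonneg.2 (hh i)) (cov_nonneg hK _ hf (sg_mono i))
  simpa using h1

/-- local field at `v` -/
noncomputable def loc (K : ι → ι → ℝ) (h : ι → ℝ) (v : ι) (s : ι → Bool) : ℝ :=
  h v + ∑ j ∈ univ.erase v, (K v j + K j v) * sp (s j)

/-- the rest of the exponent, which does not depend on the spin at `v` -/
noncomputable def rst (K : ι → ι → ℝ) (h : ι → ℝ) (v : ι) (s : ι → Bool) : ℝ :=
  K v v + ∑ i ∈ univ.erase v, ∑ j ∈ univ.erase v, K i j * (sp (s i) * sp (s j))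
    + ∑ i ∈ univ.erase v, h i * sp (s i)

theorem ex_split (K : ι → ι → ℝ) (h : ι → ℝ) (v : ι) (s : ι → Bool) :
    ex K h s = rst K h v s + sp (s v) * loc K h v s := by
  have e1 : ∀ g : ι → ℝ, ∑ i, g i = g v + ∑ i ∈ univ.erase v, g i := fun g =>
    (Finset.add_sum_erase univ g (Finset.mem_univ v)).symm
  have e2 : ∑ i ∈ univ.erase v, ∑ j, K i j * (sp (s i) * sp (s j))
      = ∑ i ∈ univ.erase v, K i v * (sp (s i) * sp (s v))
        + ∑ i ∈ univ.erase v, ∑ j ∈ univ.erase v, K i j * (sp (s i) * sp (s j)) := by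
    rw [← Finset.sum_add_distrib]
    exact Finset.sum_congr rfl fun i _ => e1 _
  have e3 : ∑ j ∈ univ.erase v, K v j * (sp (s v) * sp (s j))
      + ∑ i ∈ univ.erase v, K i v * (sp (s i) * sp (s v))
      = sp (s v) * ∑ j ∈ univ.erase v, (K v j + K j v) * sp (s j) := by
    rw [← Finset.sum_add_distrib, Finset.mul_sum]
    exact Finset.sum_congr rfl fun i _ => by ring
  unfold ex rst loc
  rw [e1 (fun i => ∑ j, K i j * (sp (s i) * sp (s j))), e1 (fun i => h i * sp (s i)), e2,
    e1 (fun j => K v j * (sp (s v) * sp (s j))), sp_sq]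
  linear_combination e3

/-- flip the spin at `v` -/
def flp (v : ι) (s : ι → Bool) : ι → Bool := Function.update s v (!(s v))

omit [Fintype ι] in
theorem flp_self (v : ι) (s : ι → Bool) : flp v s v = !(s v) := by simp [flp]

omit [Fintype ι] in
theorem flp_ne {v j : ι} (h : j ≠ v) (s : ι → Bool) : flp v s j = s j := by simp [flp, h]

omit [Fintype ι] in
theorem flp_flp (v : ι) (s : ι → Bool) : flp v (flp v s) = s := by
  funext j
  by_cases h : j = v
  · subst h; simp [flp]
  · simp [flp, h]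

theorem loc_flp (K : ι → ι → ℝ) (h : ι → ℝ) (v : ι) (s : ι → Bool) :
    loc K h v (flp v s) = loc K h v s := by
  unfold loc
  congr 1
  refine Finset.sum_congr rfl fun j hj => ?_
  rw [flp_ne (Finset.ne_of_mem_erase hj)]

theorem rst_flp (K : ι → ι → ℝ) (h : ι → ℝ) (v : ι) (s : ι → Bool) :
    rst K h v (flp v s) = rst K h v s := by
  unfold rst
  congr 1
  · congr 1
    refine Finset.sum_congr rfl fun i hi => Finset.sum_congr rfl fun j hj => ?_
    rw [flp_ne (Finset.ne_of_mem_erase hi), flp_ne (Finset.ne_of_mem_erase hj)]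
  · refine Finset.sum_congr rfl fun i hi => ?_
    rw [flp_ne (Finset.ne_of_mem_erase hi)]

theorem sum_flp (v : ι) (g : (ι → Bool) → ℝ) : ∑ s, g (flp v s) = ∑ s, g s :=
  Fintype.sum_equiv ⟨flp v, flp v, flp_flp v, flp_flp v⟩ _ _ fun _ => rfl

theorem tanh_aux (A : ℝ) (b : Bool) :
    sp b * (Real.exp (sp b * A) - Real.exp (-(sp b * A)))
      = Real.tanh A * (Real.exp (sp b * A) + Real.exp (-(sp b * A))) := by
  have h1 : Real.cosh A ≠ 0 := (Real.cosh_pos A).ne'
  cases b
  · simp only [sp_false, neg_mul, one_mul, neg_neg]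
    rw [Real.tanh_eq_sinh_div_cosh, Real.sinh_eq, Real.cosh_eq]
    rw [Real.cosh_eq] at h1
    field_simp
    ring
  · simp only [sp_true, one_mul]
    rw [Real.tanh_eq_sinh_div_cosh, Real.sinh_eq, Real.cosh_eq]
    rw [Real.cosh_eq] at h1
    field_simp

/-- conditional expectation of the spin at `v` given the others -/
theorem ev_cond (K : ι → ι → ℝ) (h : ι → ℝ) (v : ι) {f : (ι → Bool) → ℝ}
    (hf : ∀ s, f (flp v s) = f s) :
    ev K h (fun s => f s * sg v s) = ev K h (fun s => f s * Real.tanh (loc K h v s)) := by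
  unfold ev
  congr 1
  rw [← sub_eq_zero, ← Finset.sum_sub_distrib]
  set g : (ι → Bool) → ℝ := fun s => f s * sg v s * wt K h s
    - f s * Real.tanh (loc K h v s) * wt K h s with hg
  have h1 : ∀ s, g s + g (flp v s) = 0 := by
    intro s
    have hw1 : wt K h s = Real.exp (rst K h v s) * Real.exp (sp (s v) * loc K h v s) := by
      unfold wt; rw [ex_split K h v s, Real.exp_add]
    have hw2 : wt K h (flp v s)
        = Real.exp (rst K h v s) * Real.exp (-(sp (s v) * loc K h v s)) := by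
      unfold wt; rw [ex_split K h v (flp v s), Real.exp_add, rst_flp, loc_flp, flp_self, sp_not,
        neg_mul]
    have hs : sg v (flp v s) = - sg v s := by unfold sg; rw [flp_self, sp_not]
    have ht := tanh_aux (loc K h v s) (s v)
    simp only [hg]
    rw [hf, loc_flp, hs, hw1, hw2]
    unfold sg
    linear_combination f s * Real.exp (rst K h v s) * ht
  have h2 : ∑ s, g s + ∑ s, g s = 0 := by
    nth_rewrite 2 [← sum_flp v g]
    rw [← Finset.sum_add_distrib]
    exact Finset.sum_eq_zero fun s _ => h1 s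
  linarith

theorem tanh_sub_eq (x y : ℝ) :
    Real.tanh y - Real.tanh x = Real.sinh (y - x) / (Real.cosh y * Real.cosh x) := by
  have c1 := Real.cosh_pos x
  have c2 := Real.cosh_pos y
  rw [Real.tanh_eq_sinh_div_cosh, Real.tanh_eq_sinh_div_cosh, div_sub_div _ _ c2.ne' c1.ne']
  congr 1
  rw [Real.sinh_sub]

theorem tanh_monotone : Monotone Real.tanh := by
  intro x y hxy
  rw [← sub_nonneg, tanh_sub_eq]
  exact div_nonneg (Real.sinh_nonneg_iff.2 (by linarith))
    (mul_pos (Real.cosh_pos _) (Real.cosh_pos _)).le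

theorem tanh_diff (y κ X : ℝ) (hκ : 0 ≤ κ) (h1 : |y| ≤ X) (h2 : |y + 2 * κ| ≤ X) :
    Real.sinh (2 * κ) / Real.cosh X ^ 2 ≤ Real.tanh (y + 2 * κ) - Real.tanh y := by
  have c1 := Real.cosh_pos y
  have c2 := Real.cosh_pos (y + 2 * κ)
  have hX : 0 ≤ X := (abs_nonneg y).trans h1
  have e : Real.tanh (y + 2 * κ) - Real.tanh y
      = Real.sinh (2 * κ) / (Real.cosh (y + 2 * κ) * Real.cosh y) := by
    rw [tanh_sub_eq]
    congr 2
    ring
  rw [e]
  have b1 : Real.cosh y ≤ Real.cosh X := by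
    rw [Real.cosh_le_cosh]; rwa [abs_of_nonneg hX]
  have b2 : Real.cosh (y + 2 * κ) ≤ Real.cosh X := by
    rw [Real.cosh_le_cosh]; rwa [abs_of_nonneg hX]
  have hs : 0 ≤ Real.sinh (2 * κ) := Real.sinh_nonneg_iff.2 (by linarith only [hκ])
  refine div_le_div_of_nonneg_left hs (mul_pos c2 c1) ?_
  rw [sq]
  exact mul_le_mul b2 b1 c1.le (Real.cosh_pos X).le

/-- the transfer inequality -/
theorem transfer {K : ι → ι → ℝ} (hK : ∀ i j, 0 ≤ K i j) {h : ι → ℝ} {z u v : ι}
    (hzv : z ≠ v) (huv : u ≠ v) {κ X : ℝ} (hκ : 0 ≤ κ) (hκ' : κ ≤ K v u + K u v)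
    (hX : |h v| + ∑ j ∈ univ.erase v, (K v j + K j v) ≤ X) :
    Real.sinh (2 * κ) / (2 * Real.cosh X ^ 2) * cov K h (sg z) (sg u) ≤ cov K h (sg z) (sg v) := by
  set c := Real.sinh (2 * κ) / (2 * Real.cosh X ^ 2) with hc
  have hc0 : 0 ≤ c := div_nonneg (Real.sinh_nonneg_iff.2 (by linarith)) (by positivity)
  -- covariance with the conditional expectation
  have e1 : cov K h (sg z) (sg v) = cov K h (sg z) (fun s => Real.tanh (loc K h v s)) := by
    unfold cov
    have a1 : ev K h (fun s => sg z s * sg v s)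
        = ev K h (fun s => sg z s * Real.tanh (loc K h v s)) :=
      ev_cond K h v fun s => by unfold sg; rw [flp_ne hzv]
    have a2 : ev K h (sg v) = ev K h (fun s => Real.tanh (loc K h v s)) := by
      have := ev_cond K h v (f := fun _ => 1) fun s => rfl
      simpa using this
    rw [a1, a2]
  have habs : ∀ s, |loc K h v s| ≤ X := by
    intro s
    refine le_trans ?_ hX
    unfold loc
    refine (abs_add_le _ _).trans ?_
    gcongr
    refine (Finset.abs_sum_le_sum_abs _ _).trans ?_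
    refine Finset.sum_le_sum fun j _ => ?_
    rw [abs_mul, abs_sp, mul_one, abs_of_nonneg (add_nonneg (hK _ _) (hK _ _))]
  have hmono : Monotone fun s => Real.tanh (loc K h v s) - c * sg u s := by
    intro s s' hss
    have hu : u ∈ univ.erase v := Finset.mem_erase.2 ⟨huv, Finset.mem_univ _⟩
    have hsum : loc K h v s + (K v u + K u v) * (sp (s' u) - sp (s u)) ≤ loc K h v s' := by
      unfold loc
      rw [← Finset.add_sum_erase _ _ hu, ← Finset.add_sum_erase _ (fun j => (K v j + K j v) * sp (s' j)) hu]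
      have : ∑ j ∈ (univ.erase v).erase u, (K v j + K j v) * sp (s j)
          ≤ ∑ j ∈ (univ.erase v).erase u, (K v j + K j v) * sp (s' j) :=
        Finset.sum_le_sum fun j _ => mul_le_mul_of_nonneg_left (sp_mono (hss j))
          (add_nonneg (hK _ _) (hK _ _))
      linarith only [this]
    have hsu := hss u
    show Real.tanh (loc K h v s) - c * sp (s u) ≤ Real.tanh (loc K h v s') - c * sp (s' u)
    rcases eq_or_ne (s u) (s' u) with heq | hne
    · rw [heq] at hsum ⊢
      have : loc K h v s ≤ loc K h v s' := by linarith only [hsum]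
      have := tanh_monotone this
      linarith only [this]
    · have h1 : s u = false ∧ s' u = true := by
        revert hsu hne
        cases s u <;> cases s' u <;> simp
      rw [h1.1, h1.2] at hsum ⊢
      simp only [sp_true, sp_false] at hsum ⊢
      have h2 : loc K h v s + 2 * κ ≤ loc K h v s' := by nlinarith only [hκ', hsum]
      have h3 : |loc K h v s + 2 * κ| ≤ X := by
        rw [abs_le]
        have := abs_le.1 (habs s)
        have := abs_le.1 (habs s')
        constructor <;> linarith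
      have h4 := tanh_diff (loc K h v s) κ X hκ (habs s) h3
      have h5 := tanh_monotone h2
      have h6 : Real.sinh (2 * κ) / Real.cosh X ^ 2 = 2 * c := by
        rw [hc]
        have := (Real.cosh_pos X).ne'
        (clear * - this; field_simp)
      linarith only [h4, h5, h6]
  have h7 := cov_nonneg hK h (sg_mono z) hmono
  have h8 : cov K h (sg z) (fun s => Real.tanh (loc K h v s) - c * sg u s)
      = cov K h (sg z) (fun s => Real.tanh (loc K h v s)) - c * cov K h (sg z) (sg u) := by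
    unfold cov
    have a1 : (fun s => sg z s * (Real.tanh (loc K h v s) - c * sg u s))
        = fun s => sg z s * Real.tanh (loc K h v s) - c * (sg z s * sg u s) := by
      funext s; ring
    rw [a1, ev_sub, ev_sub, ev_const_mul, ev_const_mul]
    ring
  rw [h8] at h7
  rw [e1]
  linarith only [h7]

end Vale.Agent.P144
end
end

section

section

namespace Vale.Agent.P144

open Finset

variable {ι : Type*} [Fintype ι] [DecidableEq ι]

/-- The orthogonal matrix of Ellis and Monroe, times two. -/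
def om : Fin 4 → Fin 4 → ℝ := ![![1, 1, 1, 1], ![1, 1, -1, -1], ![1, -1, 1, -1], ![-1, 1, 1, -1]]

/-- rotated single site variable -/
noncomputable def vv (q : Fin 4 → Bool) (r : Fin 4) : ℝ := (∑ u, om r u * sp (q u)) / 2

/-- explicit enumeration of four bits -/
def qe : (Fin 4 → Bool) ≃ (Bool × Bool × Bool × Bool) where
  toFun q := (q 0, q 1, q 2, q 3)
  invFun t := ![t.1, t.2.1, t.2.2.1, t.2.2.2]
  left_inv q := by funext i; fin_cases i <;> rfl
  right_inv t := rfl

theorem vv0 (q : Fin 4 → Bool) : vv q 0 = (sp (q 0) + sp (q 1) + sp (q 2) + sp (q 3)) / 2 := by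
  simp [vv, om, Fin.sum_univ_four]
theorem vv1 (q : Fin 4 → Bool) : vv q 1 = (sp (q 0) + sp (q 1) - sp (q 2) - sp (q 3)) / 2 := by
  simp only [vv, om, Fin.isValue, Matrix.cons_val', Matrix.cons_val_fin_one, Matrix.cons_val_one, Matrix.cons_val_zero, Fin.sum_univ_four, one_mul, Matrix.cons_val, neg_mul, ne_eq, OfNat.ofNat_ne_zero, not_false_eq_true, div_left_inj']; ring
theorem vv2 (q : Fin 4 → Bool) : vv q 2 = (sp (q 0) - sp (q 1) + sp (q 2) - sp (q 3)) / 2 := by
  simp only [vv, om, Fin.isValue, Matrix.cons_val', Matrix.cons_val_fin_one, Matrix.cons_val, Matrix.cons_val_one, Matrix.cons_val_zero, Fin.sum_univ_four, one_mul, neg_mul, ne_eq, OfNat.ofNat_ne_zero, not_false_eq_true, div_left_inj']; ring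
theorem vv3 (q : Fin 4 → Bool) : vv q 3 = (- sp (q 0) + sp (q 1) + sp (q 2) - sp (q 3)) / 2 := by
  simp only [vv, om, Fin.isValue, Matrix.cons_val', Matrix.cons_val_fin_one, Matrix.cons_val, Matrix.cons_val_one, Fin.sum_univ_four, Matrix.cons_val_zero, neg_mul, one_mul, ne_eq, OfNat.ofNat_ne_zero, not_false_eq_true, div_left_inj']; ring

theorem qs0 (t : Bool × Bool × Bool × Bool) : qe.symm t 0 = t.1 := rfl
theorem qs1 (t : Bool × Bool × Bool × Bool) : qe.symm t 1 = t.2.1 := rfl
theorem qs2 (t : Bool × Bool × Bool × Bool) : qe.symm t 2 = t.2.2.1 := rfl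
theorem qs3 (t : Bool × Bool × Bool × Bool) : qe.symm t 3 = t.2.2.2 := rfl

theorem zero_pow_nn (n : ℕ) : (0:ℝ) ≤ 0 ^ n := pow_nonneg le_rfl n

theorem two_pow_nn (n : ℕ) : (0:ℝ) ≤ 2 ^ n + (-2) ^ n := by
  rcases Nat.even_or_odd n with h | h
  · rw [h.neg_pow]; positivity
  · rw [h.neg_pow]; simp

theorem single_moment (e : Fin 4 → ℕ) : 0 ≤ ∑ q : Fin 4 → Bool, ∏ r, vv q r ^ e r := by
  have h1 : ∑ q : Fin 4 → Bool, ∏ r, vv q r ^ e r
      = ∑ t : Bool × Bool × Bool × Bool, ∏ r, vv (qe.symm t) r ^ e r :=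
    Fintype.sum_equiv qe _ _ fun q => by simp
  rw [h1]
  simp only [Fin.prod_univ_four, vv0, vv1, vv2, vv3, qs0, qs1, qs2, qs3,
    Fintype.sum_prod_type, Fintype.sum_bool, sp_true, sp_false]
  norm_num
  obtain ⟨k, hk⟩ : ∃ k, k = e 0 := ⟨_, rfl⟩
  obtain ⟨l, hl⟩ : ∃ k, k = e 1 := ⟨_, rfl⟩
  obtain ⟨m, hm⟩ : ∃ k, k = e 2 := ⟨_, rfl⟩
  obtain ⟨n, hn⟩ : ∃ k, k = e 3 := ⟨_, rfl⟩
  simp only [← hk, ← hl, ← hm, ← hn]
  have z0 := zero_pow_nn
  have b1 : 0 ≤ (2 ^ k + (-2) ^ k) * (0:ℝ) ^ l * 0 ^ m * 0 ^ n :=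
    mul_nonneg (mul_nonneg (mul_nonneg (two_pow_nn k) (z0 l)) (z0 m)) (z0 n)
  have b2 : 0 ≤ (2 ^ l + (-2) ^ l) * (0:ℝ) ^ k * 0 ^ m * 0 ^ n :=
    mul_nonneg (mul_nonneg (mul_nonneg (two_pow_nn l) (z0 k)) (z0 m)) (z0 n)
  have b3 : 0 ≤ (2 ^ m + (-2) ^ m) * (0:ℝ) ^ k * 0 ^ l * 0 ^ n :=
    mul_nonneg (mul_nonneg (mul_nonneg (two_pow_nn m) (z0 k)) (z0 l)) (z0 n)
  have b4 : 0 ≤ (2 ^ n + (-2) ^ n) * (0:ℝ) ^ k * 0 ^ l * 0 ^ m :=
    mul_nonneg (mul_nonneg (mul_nonneg (two_pow_nn n) (z0 k)) (z0 l)) (z0 m)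
  have b5 : (0:ℝ) ≤ 1 + (-1) ^ m * (-1) ^ n + (-1) ^ l * (-1) ^ n + (-1) ^ k * (-1) ^ n
      + (-1) ^ l * (-1) ^ m + (-1) ^ k * (-1) ^ m + (-1) ^ k * (-1) ^ l
      + (-1) ^ k * (-1) ^ l * (-1) ^ m * (-1) ^ n := by
    rcases neg_one_pow_eq_or ℝ k with h1 | h1 <;> rcases neg_one_pow_eq_or ℝ l with h2 | h2 <;>
    rcases neg_one_pow_eq_or ℝ m with h3 | h3 <;> rcases neg_one_pow_eq_or ℝ n with h4 | h4 <;>
    rw [h1, h2, h3, h4] <;> norm_num
  linarith only [b1, b2, b3, b4, b5]

/-! ### positivity of replica expectations -/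

/-- monomial in the rotated variables -/
noncomputable def mono (e : ι → Fin 4 → ℕ) (p : ι → Fin 4 → Bool) : ℝ :=
  ∏ i, ∏ r, vv (p i) r ^ e i r

omit [DecidableEq ι] in
theorem mono_zero (p : ι → Fin 4 → Bool) : mono (fun _ _ => 0) p = 1 := by
  simp only [mono, pow_zero, prod_const_one]

theorem mono_single (e : ι → Fin 4 → ℕ) (j : ι) (r : Fin 4) (p : ι → Fin 4 → Bool) :
    mono e p * vv (p j) r
      = mono (fun i r' => e i r' + if i = j ∧ r' = r then 1 else 0) p := by
  unfold mono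
  have h1 : ∀ i, ∏ r', vv (p i) r' ^ (e i r' + if i = j ∧ r' = r then 1 else 0)
      = (∏ r', vv (p i) r' ^ e i r') * (if i = j then vv (p j) r else 1) := by
    intro i
    simp only [pow_add, Finset.prod_mul_distrib]
    congr 1
    by_cases hij : i = j
    · subst hij
      simp only [true_and, if_true]
      rw [Finset.prod_eq_single r]
      · simp
      · intro b _ hb; simp [hb]
      · simp
    · simp [hij]
  simp only [h1, Finset.prod_mul_distrib]
  congr 1
  simp only [prod_ite_eq', mem_univ, ↓reduceIte]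

/-- `F` has nonnegative correlation with all monomials. -/
def PosF (F : (ι → Fin 4 → Bool) → ℝ) : Prop :=
  ∀ e : ι → Fin 4 → ℕ, 0 ≤ ∑ p, F p * mono e p

/-- multiplication by `G` preserves `PosF`. -/
def MP (G : (ι → Fin 4 → Bool) → ℝ) : Prop :=
  ∀ F : (ι → Fin 4 → Bool) → ℝ, PosF F → PosF (fun p => F p * G p)

theorem PosF_one : PosF (fun _ : ι → Fin 4 → Bool => (1:ℝ)) := by
  intro e
  simp only [one_mul]
  have h : ∑ p : ι → Fin 4 → Bool, mono e p = ∏ i, ∑ q : Fin 4 → Bool, ∏ r, vv q r ^ e i r := by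
    rw [Fintype.prod_sum]
    rfl
  rw [h]
  exact Finset.prod_nonneg fun i _ => single_moment (e i)

theorem MP_var (j : ι) (r : Fin 4) : MP (fun p : ι → Fin 4 → Bool => vv (p j) r) := by
  intro F hF e
  have := hF (fun i r' => e i r' + if i = j ∧ r' = r then 1 else 0)
  refine this.trans (le_of_eq ?_)
  refine Finset.sum_congr rfl fun p _ => ?_
  rw [← mono_single]
  ring

theorem MP_add {G H : (ι → Fin 4 → Bool) → ℝ} (hG : MP G) (hH : MP H) :
    MP (fun p => G p + H p) := by
  intro F hF e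
  have := add_nonneg (hG F hF e) (hH F hF e)
  refine this.trans (le_of_eq ?_)
  rw [← Finset.sum_add_distrib]
  exact Finset.sum_congr rfl fun p _ => by ring

theorem MP_const {c : ℝ} (hc : 0 ≤ c) : MP (fun _ : ι → Fin 4 → Bool => c) := by
  intro F hF e
  have := mul_nonneg hc (hF e)
  refine this.trans (le_of_eq ?_)
  rw [Finset.mul_sum]
  exact Finset.sum_congr rfl fun p _ => by ring

theorem MP_mul {G H : (ι → Fin 4 → Bool) → ℝ} (hG : MP G) (hH : MP H) :
    MP (fun p => G p * H p) := by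
  intro F hF e
  have := hH _ (hG F hF) e
  refine this.trans (le_of_eq ?_)
  exact Finset.sum_congr rfl fun p _ => by ring

theorem MP_sum {κ : Type*} (T : Finset κ) {G : κ → (ι → Fin 4 → Bool) → ℝ}
    (hG : ∀ k ∈ T, MP (G k)) : MP (fun p => ∑ k ∈ T, G k p) := by
  classical
  induction T using Finset.induction_on with
  | empty => simpa using MP_const (ι := ι) (le_refl (0:ℝ))
  | insert a T ha ih =>
    simp only [Finset.sum_insert ha]
    exact MP_add (hG a (Finset.mem_insert_self _ _))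
      (ih fun k hk => hG k (Finset.mem_insert_of_mem hk))

theorem MP_pow {G : (ι → Fin 4 → Bool) → ℝ} (hG : MP G) (n : ℕ) : MP (fun p => G p ^ n) := by
  induction n with
  | zero => simpa using MP_const (ι := ι) (zero_le_one (α := ℝ))
  | succ n ih =>
    simp only [pow_succ]
    exact MP_mul ih hG

theorem MP_exp {G : (ι → Fin 4 → Bool) → ℝ} (hG : MP G) : MP (fun p => Real.exp (G p)) := by
  intro F hF e
  have h1 : ∀ p, HasSum (fun n : ℕ => G p ^ n / n.factorial) (Real.exp (G p)) := by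
    intro p
    rw [Real.exp_eq_exp_ℝ]
    exact NormedSpace.expSeries_div_hasSum_exp (G p)
  have h2 : HasSum (fun n : ℕ => ∑ p, F p * (G p ^ n / n.factorial) * mono e p)
      (∑ p, F p * Real.exp (G p) * mono e p) :=
    hasSum_sum fun p _ => ((h1 p).mul_left (F p)).mul_right (mono e p)
  refine h2.nonneg fun n => ?_
  have h3 := MP_pow hG n F hF e
  have h4 : ∑ p, F p * (G p ^ n / n.factorial) * mono e p
      = (∑ p, F p * G p ^ n * mono e p) / n.factorial := by
    rw [Finset.sum_div]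
    exact Finset.sum_congr rfl fun p _ => by ring
  rw [h4]
  (clear * - h3; positivity)

/-! ### the GHS inequality -/

/-- the exponent of the four replica system in the rotated variables -/
noncomputable def rotE (K : ι → ι → ℝ) (h : ι → ℝ) (p : ι → Fin 4 → Bool) : ℝ :=
  ∑ i, ∑ j, K i j * (∑ r, vv (p i) r * vv (p j) r) + ∑ i, 2 * h i * vv (p i) 0

theorem MP_rotE {K : ι → ι → ℝ} {h : ι → ℝ} (hK : ∀ i j, 0 ≤ K i j) (hh : ∀ i, 0 ≤ h i) :
    MP (rotE K h) := by
  unfold rotE
  refine MP_add ?_ ?_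
  · refine MP_sum _ fun i _ => MP_sum _ fun j _ => MP_mul (MP_const (hK i j)) ?_
    exact MP_sum _ fun r _ => MP_mul (MP_var i r) (MP_var j r)
  · exact MP_sum _ fun i _ => MP_mul (MP_const (by have := hh i; positivity)) (MP_var i 0)

theorem orth (a b : Fin 4 → Bool) : ∑ r, vv a r * vv b r = ∑ u, sp (a u) * sp (b u) := by
  simp only [Fin.sum_univ_four, vv0, vv1, vv2, vv3]
  ring

omit [DecidableEq ι] in
theorem rotE_eq (K : ι → ι → ℝ) (h : ι → ℝ) (p : ι → Fin 4 → Bool) :
    rotE K h p = ∑ u : Fin 4, ex K h (fun i => p i u) := by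
  unfold rotE ex
  rw [Finset.sum_add_distrib]
  congr 1
  · symm
    rw [Finset.sum_comm]
    refine Finset.sum_congr rfl fun i _ => ?_
    rw [Finset.sum_comm]
    refine Finset.sum_congr rfl fun j _ => ?_
    rw [orth, Finset.mul_sum]
  · symm
    rw [Finset.sum_comm]
    refine Finset.sum_congr rfl fun i _ => ?_
    rw [vv0, Fin.sum_univ_four]
    ring

/-- positivity of the mixed third moment of the three difference variables -/
theorem replica_nonneg {K : ι → ι → ℝ} {h : ι → ℝ} (hK : ∀ i j, 0 ≤ K i j) (hh : ∀ i, 0 ≤ h i)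
    (i j k : ι) :
    0 ≤ ∑ p : ι → Fin 4 → Bool, vv (p i) 1 * vv (p j) 2 * vv (p k) 3
      * ∏ u : Fin 4, wt K h (fun l => p l u) := by
  have h1 := MP_mul (MP_mul (MP_mul (MP_var i 1) (MP_var j 2)) (MP_var k 3))
    (MP_exp (MP_rotE hK hh)) _ PosF_one (fun _ _ => 0)
  refine h1.trans (le_of_eq ?_)
  refine Finset.sum_congr rfl fun p _ => ?_
  simp only [mono_zero, rotE_eq, Real.exp_sum, one_mul, mul_one]
  rfl

/-- all replica moments of three spins, by independence -/
theorem replica_factor (K : ι → ι → ℝ) (h : ι → ℝ) (g : Fin 4 → (ι → Bool) → ℝ) :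
    ∑ p : ι → Fin 4 → Bool, ∏ u : Fin 4, (g u (fun l => p l u) * wt K h (fun l => p l u))
      = ∏ u : Fin 4, ∑ s, g u s * wt K h s := by
  rw [Fintype.prod_sum]
  exact Fintype.sum_equiv (Equiv.piComm fun _ _ => Bool) _ _ fun p => rfl

/-- unnormalised moments -/
noncomputable def nm (K : ι → ι → ℝ) (h : ι → ℝ) (i j k : ι) (a b c : Bool) : ℝ :=
  ∑ s, (bif a then sp (s i) else 1) * (bif b then sp (s j) else 1) * (bif c then sp (s k) else 1)
    * wt K h s

theorem replica_term (K : ι → ι → ℝ) (h : ι → ℝ) (i j k : ι) (r s t : Fin 4) :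
    ∑ p : ι → Fin 4 → Bool, sp (p i r) * sp (p j s) * sp (p k t)
      * ∏ u : Fin 4, wt K h (fun l => p l u)
      = ∏ u : Fin 4, nm K h i j k (decide (u = r)) (decide (u = s)) (decide (u = t)) := by
  unfold nm
  rw [← replica_factor K h (fun u x => (bif decide (u = r) then sp (x i) else 1)
    * (bif decide (u = s) then sp (x j) else 1) * (bif decide (u = t) then sp (x k) else 1))]
  refine Finset.sum_congr rfl fun p _ => ?_
  simp only [Finset.prod_mul_distrib, Bool.cond_decide, Finset.prod_ite_eq', Finset.mem_univ,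
    if_true]

theorem replica_sum (K : ι → ι → ℝ) (h : ι → ℝ) (i j k : ι) :
    ∑ p : ι → Fin 4 → Bool, vv (p i) 1 * vv (p j) 2 * vv (p k) 3
      * ∏ u : Fin 4, wt K h (fun l => p l u)
      = (1/8) * ∑ r, ∑ s, ∑ t, om 1 r * om 2 s * om 3 t *
        ∏ u : Fin 4, nm K h i j k (decide (u = r)) (decide (u = s)) (decide (u = t)) := by
  simp only [← replica_term, Finset.mul_sum]
  symm
  rw [Finset.sum_congr rfl fun r _ => Finset.sum_congr rfl fun s _ => Finset.sum_comm]
  rw [Finset.sum_congr rfl fun r _ => Finset.sum_comm]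
  rw [Finset.sum_comm]
  refine Finset.sum_congr rfl fun p _ => ?_
  unfold vv
  rw [Finset.sum_div, Finset.sum_div, Finset.sum_div, Finset.sum_mul_sum, Finset.sum_mul]
  rw [Finset.sum_mul]
  refine Finset.sum_congr rfl fun r _ => ?_
  rw [Finset.sum_mul, Finset.sum_mul]
  refine Finset.sum_congr rfl fun s _ => ?_
  rw [Finset.mul_sum, Finset.sum_mul]
  refine Finset.sum_congr rfl fun t _ => ?_
  ring

theorem replica_value (n : Bool → Bool → Bool → ℝ) :
    (1/8) * ∑ r, ∑ s, ∑ t, om 1 r * om 2 s * om 3 t *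
        ∏ u : Fin 4, n (decide (u = r)) (decide (u = s)) (decide (u = t))
      = -(1/2) * (n true true true * n false false false ^ 3
        - n true true false * n false false true * n false false false ^ 2
        - n true false true * n false true false * n false false false ^ 2
        - n false true true * n true false false * n false false false ^ 2
        + 2 * n true false false * n false true false * n false false true
          * n false false false) := by
  simp only [Fin.sum_univ_four, Fin.prod_univ_four, om]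
  simp only [one_div, Fin.isValue, Matrix.cons_val', Matrix.cons_val_zero, Matrix.cons_val_fin_one, Matrix.cons_val_one, Matrix.cons_val, mul_one, mul_neg, decide_true, one_ne_zero, decide_false, Fin.reduceEq, neg_mul, one_mul, zero_ne_one, neg_neg]
  ring

/-- The Griffiths, Hurst and Sherman inequality. -/
theorem ghs {K : ι → ι → ℝ} {h : ι → ℝ} (hK : ∀ i j, 0 ≤ K i j) (hh : ∀ i, 0 ≤ h i)
    (i j k : ι) :
    ev K h (fun s => sp (s i) * sp (s j) * sp (s k))
      - ev K h (fun s => sp (s i) * sp (s j)) * ev K h (fun s => sp (s k))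
      - ev K h (fun s => sp (s i) * sp (s k)) * ev K h (fun s => sp (s j))
      - ev K h (fun s => sp (s j) * sp (s k)) * ev K h (fun s => sp (s i))
      + 2 * ev K h (fun s => sp (s i)) * ev K h (fun s => sp (s j)) * ev K h (fun s => sp (s k))
      ≤ 0 := by
  have h1 := replica_nonneg hK hh i j k
  rw [replica_sum, replica_value] at h1
  unfold nm at h1
  simp only [cond_true, cond_false, one_mul, mul_one] at h1
  have hZ := Z_pos K h
  unfold ev
  set Z := ∑ s, wt K h s with hZdef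
  set a := ∑ s, sp (s i) * sp (s j) * sp (s k) * wt K h s
  set b := ∑ s, sp (s i) * sp (s j) * wt K h s
  set c := ∑ s, sp (s i) * sp (s k) * wt K h s
  set d := ∑ s, sp (s j) * sp (s k) * wt K h s
  set x := ∑ s, sp (s i) * wt K h s
  set y := ∑ s, sp (s j) * wt K h s
  set w := ∑ s, sp (s k) * wt K h s
  have h2 : a / Z - b / Z * (w / Z) - c / Z * (y / Z) - d / Z * (x / Z)
      + 2 * (x / Z) * (y / Z) * (w / Z)
      = (a * Z ^ 3 - b * w * Z ^ 2 - c * y * Z ^ 2 - d * x * Z ^ 2 + 2 * x * y * w * Z)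
        / Z ^ 4 := by
    field_simp
  rw [h2]
  refine div_nonpos_of_nonpos_of_nonneg ?_ (by positivity)
  linarith only [h1]

end Vale.Agent.P144
end
end

section

section

namespace Vale.Agent.P144

open Finset

variable {ι : Type*} [Fintype ι] [DecidableEq ι]

/-- the linear observable with coefficients `w` -/
noncomputable def lin (w : ι → ℝ) (s : ι → Bool) : ℝ := ∑ i, w i * sp (s i)

theorem hasDerivAt_cov (K : ι → ι → ℝ) (h w : ι → ℝ) (z : ι) (t : ℝ) :
    HasDerivAt (fun t : ℝ => cov K (fun i => h i + t * w i) (sg z) (lin w))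
      (ev K (fun i => h i + t * w i) (fun s => sg z s * lin w s * lin w s)
        - 2 * ev K (fun i => h i + t * w i) (fun s => sg z s * lin w s)
            * ev K (fun i => h i + t * w i) (lin w)
        - ev K (fun i => h i + t * w i) (fun s => lin w s * lin w s)
            * ev K (fun i => h i + t * w i) (sg z)
        + 2 * ev K (fun i => h i + t * w i) (sg z) * ev K (fun i => h i + t * w i) (lin w)
            * ev K (fun i => h i + t * w i) (lin w)) t := by
  have h1 : HasDerivAt _ (cov K (fun i => h i + t * w i) (fun s => sg z s * lin w s) (lin w)) t :=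
    hasDerivAt_ev K h w (fun s => sg z s * lin w s) t
  have h2 : HasDerivAt _ (cov K (fun i => h i + t * w i) (sg z) (lin w)) t :=
    hasDerivAt_ev K h w (sg z) t
  have h3 : HasDerivAt _ (cov K (fun i => h i + t * w i) (lin w) (lin w)) t :=
    hasDerivAt_ev K h w (lin w) t
  have h4 := h1.sub (h2.mul h3)
  refine h4.congr_deriv ?_
  unfold cov
  ring

theorem third_cumulant_nonpos {K : ι → ι → ℝ} {h : ι → ℝ} (hK : ∀ i j, 0 ≤ K i j)
    (hh : ∀ i, 0 ≤ h i) {w : ι → ℝ} (hw : ∀ i, 0 ≤ w i) (z : ι) :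
    ev K h (fun s => sg z s * lin w s * lin w s)
        - 2 * ev K h (fun s => sg z s * lin w s) * ev K h (lin w)
        - ev K h (fun s => lin w s * lin w s) * ev K h (sg z)
        + 2 * ev K h (sg z) * ev K h (lin w) * ev K h (lin w) ≤ 0 := by
  have e1 : ev K h (fun s => sg z s * lin w s * lin w s)
      = ∑ i, ∑ j, w i * w j * ev K h (fun s => sp (s z) * sp (s i) * sp (s j)) := by
    have : (fun s : ι → Bool => sg z s * lin w s * lin w s)
        = fun s => ∑ i, ∑ j, (w i * w j) * (sp (s z) * sp (s i) * sp (s j)) := by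
      funext s
      unfold lin sg
      rw [mul_assoc, Finset.sum_mul_sum, Finset.mul_sum]
      refine Finset.sum_congr rfl fun i _ => ?_
      rw [Finset.mul_sum]
      exact Finset.sum_congr rfl fun j _ => by ring
    rw [this, ev_sum]
    refine Finset.sum_congr rfl fun i _ => ?_
    rw [ev_sum]
    exact Finset.sum_congr rfl fun j _ => by rw [ev_const_mul]
  have e2 : ev K h (fun s => sg z s * lin w s)
      = ∑ i, w i * ev K h (fun s => sp (s z) * sp (s i)) := by
    have : (fun s : ι → Bool => sg z s * lin w s)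
        = fun s => ∑ i, w i * (sp (s z) * sp (s i)) := by
      funext s
      unfold lin sg
      rw [Finset.mul_sum]
      exact Finset.sum_congr rfl fun i _ => by ring
    rw [this, ev_sum]
    exact Finset.sum_congr rfl fun j _ => by rw [ev_const_mul]
  have e3 : ev K h (lin w) = ∑ i, w i * ev K h (fun s => sp (s i)) := by
    have : (lin w : (ι → Bool) → ℝ) = fun s => ∑ i, w i * (sp (s i)) := rfl
    rw [this, ev_sum]
    exact Finset.sum_congr rfl fun j _ => by rw [ev_const_mul]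
  have e4 : ev K h (fun s => lin w s * lin w s)
      = ∑ i, ∑ j, w i * w j * ev K h (fun s => sp (s i) * sp (s j)) := by
    have : (fun s : ι → Bool => lin w s * lin w s)
        = fun s => ∑ i, ∑ j, (w i * w j) * (sp (s i) * sp (s j)) := by
      funext s
      unfold lin
      rw [Finset.sum_mul]
      refine Finset.sum_congr rfl fun i _ => ?_
      rw [Finset.mul_sum]
      exact Finset.sum_congr rfl fun j _ => by ring
    rw [this, ev_sum]
    refine Finset.sum_congr rfl fun i _ => ?_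
    rw [ev_sum]
    exact Finset.sum_congr rfl fun j _ => by rw [ev_const_mul]
  have key : ∀ i j, w i * w j * (ev K h (fun s => sp (s z) * sp (s i) * sp (s j))
      - ev K h (fun s => sp (s z) * sp (s i)) * ev K h (fun s => sp (s j))
      - ev K h (fun s => sp (s z) * sp (s j)) * ev K h (fun s => sp (s i))
      - ev K h (fun s => sp (s i) * sp (s j)) * ev K h (fun s => sp (s z))
      + 2 * ev K h (fun s => sp (s z)) * ev K h (fun s => sp (s i))
          * ev K h (fun s => sp (s j))) ≤ 0 := fun i j =>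
    mul_nonpos_of_nonneg_of_nonpos (mul_nonneg (hw i) (hw j)) (ghs hK hh z i j)
  have hsum : ∑ i, ∑ j, w i * w j * (ev K h (fun s => sp (s z) * sp (s i) * sp (s j))
      - ev K h (fun s => sp (s z) * sp (s i)) * ev K h (fun s => sp (s j))
      - ev K h (fun s => sp (s z) * sp (s j)) * ev K h (fun s => sp (s i))
      - ev K h (fun s => sp (s i) * sp (s j)) * ev K h (fun s => sp (s z))
      + 2 * ev K h (fun s => sp (s z)) * ev K h (fun s => sp (s i))
          * ev K h (fun s => sp (s j))) ≤ 0 :=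
    Finset.sum_nonpos fun i _ => Finset.sum_nonpos fun j _ => key i j
  refine le_trans (le_of_eq ?_) hsum
  rw [e1, e2, e3, e4]
  have hz : ev K h (sg z) = ev K h (fun s => sp (s z)) := rfl
  rw [hz]
  set m := fun i => ev K h (fun s : ι → Bool => sp (s i)) with hm
  set m2 := fun i j => ev K h (fun s : ι → Bool => sp (s i) * sp (s j)) with hm2
  set m3 := fun i j => ev K h (fun s : ι → Bool => sp (s z) * sp (s i) * sp (s j)) with hm3
  show ∑ i, ∑ j, w i * w j * m3 i j - 2 * (∑ i, w i * m2 z i) * (∑ i, w i * m i)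
      - (∑ i, ∑ j, w i * w j * m2 i j) * m z + 2 * m z * (∑ i, w i * m i) * (∑ i, w i * m i)
    = ∑ i, ∑ j, w i * w j * (m3 i j - m2 z i * m j - m2 z j * m i - m2 i j * m z
      + 2 * m z * m i * m j)
  have f1 : (∑ i, w i * m2 z i) * (∑ j, w j * m j) = ∑ i, ∑ j, w i * w j * (m2 z i * m j) := by
    rw [Finset.sum_mul_sum]
    exact Finset.sum_congr rfl fun i _ => Finset.sum_congr rfl fun j _ => by ring
  have f2 : (∑ i, w i * m2 z i) * (∑ j, w j * m j) = ∑ i, ∑ j, w i * w j * (m2 z j * m i) := by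
    rw [Finset.sum_mul_sum, Finset.sum_comm]
    exact Finset.sum_congr rfl fun i _ => Finset.sum_congr rfl fun j _ => by ring
  have f3 : (∑ i, w i * m i) * (∑ j, w j * m j) = ∑ i, ∑ j, w i * w j * (m i * m j) := by
    rw [Finset.sum_mul_sum]
    exact Finset.sum_congr rfl fun i _ => Finset.sum_congr rfl fun j _ => by ring
  have f4 : ∑ i, ∑ j, w i * w j * (m3 i j - m2 z i * m j - m2 z j * m i - m2 i j * m z
      + 2 * m z * m i * m j)
      = ∑ i, ∑ j, w i * w j * m3 i j - ∑ i, ∑ j, w i * w j * (m2 z i * m j)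
        - ∑ i, ∑ j, w i * w j * (m2 z j * m i) - m z * ∑ i, ∑ j, w i * w j * m2 i j
        + 2 * m z * ∑ i, ∑ j, w i * w j * (m i * m j) := by
    simp only [Finset.mul_sum, ← Finset.sum_sub_distrib, ← Finset.sum_add_distrib]
    exact Finset.sum_congr rfl fun i _ => Finset.sum_congr rfl fun j _ => by ring
  rw [f4, ← f1, ← f2, ← f3]
  ring

/-- Concavity of the magnetisation along nonnegative field directions. -/
theorem ev_concave {K : ι → ι → ℝ} {h : ι → ℝ} (hK : ∀ i j, 0 ≤ K i j)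
    (hh : ∀ i, 0 ≤ h i) {w : ι → ℝ} (hw : ∀ i, 0 ≤ w i) (z : ι) {t : ℝ} (ht0 : 0 ≤ t)
    (ht1 : t ≤ 1) :
    (1 - t) * ev K h (sg z) + t * ev K (fun i => h i + w i) (sg z)
      ≤ ev K (fun i => h i + t * w i) (sg z) := by
  set φ : ℝ → ℝ := fun t => ev K (fun i => h i + t * w i) (sg z) with hφ
  set ψ : ℝ → ℝ := fun t => cov K (fun i => h i + t * w i) (sg z) (lin w) with hψ
  have hd : ∀ t, HasDerivAt φ (ψ t) t := fun t => hasDerivAt_ev K h w (sg z) t
  have hderiv : deriv φ = ψ := funext fun t => (hd t).deriv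
  have hanti : AntitoneOn ψ (Set.Icc (0:ℝ) 1) := by
    refine antitoneOn_of_deriv_nonpos (convex_Icc 0 1) ?_ ?_ ?_
    · exact fun t _ => (hasDerivAt_cov K h w z t).continuousAt.continuousWithinAt
    · exact fun t _ => (hasDerivAt_cov K h w z t).differentiableAt.differentiableWithinAt
    · intro t ht
      rw [(hasDerivAt_cov K h w z t).deriv]
      have ht' := interior_subset ht
      exact third_cumulant_nonpos hK
        (fun i => add_nonneg (hh i) (mul_nonneg ht'.1 (hw i))) hw z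
  have hconc : ConcaveOn ℝ (Set.Icc (0:ℝ) 1) φ := by
    refine AntitoneOn.concaveOn_of_deriv (convex_Icc 0 1) ?_ ?_ ?_
    · exact fun t _ => (hd t).continuousAt.continuousWithinAt
    · exact fun t _ => (hd t).differentiableAt.differentiableWithinAt
    · rw [hderiv]
      exact hanti.mono interior_subset
  have := hconc.2 (Set.left_mem_Icc.2 zero_le_one) (Set.right_mem_Icc.2 zero_le_one)
    (sub_nonneg.2 ht1) ht0 (by ring)
  simpa only [ge_iff_le, hφ, zero_mul, add_zero, smul_eq_mul, one_mul, mul_zero, mul_one, zero_add] using this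

end Vale.Agent.P144
end
end

section

section

namespace Vale.Agent.P144

open Finset

variable {ι : Type*} [Fintype ι] [DecidableEq ι]

/-- constant of the transfer inequality -/
noncomputable def cpar (κ X : ℝ) : ℝ := Real.sinh (2 * κ) / (2 * Real.cosh X ^ 2)

theorem cpar_pos {κ : ℝ} (hκ : 0 < κ) (X : ℝ) : 0 < cpar κ X :=
  div_pos (Real.sinh_pos_iff.2 (by linarith)) (by positivity)

/-- constant of the comparison lemma -/
noncomputable def tpar (ε L κ X : ℝ) : ℝ := min (1 / (1 + 1 / cpar κ X)) (ε / (ε + L))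

theorem tpar_pos {ε L κ : ℝ} (hε : 0 < ε) (hL : 0 ≤ L) (hκ : 0 < κ) (X : ℝ) :
    0 < tpar ε L κ X := by
  have := cpar_pos hκ X
  exact lt_min (by positivity) (by positivity)

/-- Comparison of boundary fields: `L` on `R1`, `ε` on `R2`, `R3` against `ε` on `R1`, `R2`. -/
theorem compare {K : ι → ι → ℝ} (hK : ∀ i j, 0 ≤ K i j) {k : ι → ℝ} (hk : ∀ i, 0 ≤ k i)
    {R1 R2 R3 : Finset ι} (h12 : Disjoint R1 R2) (h23 : Disjoint R2 R3)
    {ε L κ X : ℝ} (hε : 0 < ε) (hL : 0 ≤ L) (hκ : 0 < κ) {z : ι} {ρ : ι → ι}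
    (hρ : ∀ u ∈ R3, ρ u ∈ R2 ∧ κ ≤ K (ρ u) u + K u (ρ u) ∧ z ≠ ρ u)
    (hinj : Set.InjOn ρ R3)
    (hX : ∀ v, k v + ε + ∑ j ∈ univ.erase v, (K v j + K j v) ≤ X) :
    tpar ε L κ X * (ev K (fun i => k i + (L * (if i ∈ R1 then 1 else 0)
        + ε * (if i ∈ R2 then 1 else 0) + ε * (if i ∈ R3 then 1 else 0))) (sg z) - ev K k (sg z))
      ≤ ev K (fun i => k i + (ε * (if i ∈ R1 then 1 else 0) + ε * (if i ∈ R2 then 1 else 0)))
          (sg z) - ev K k (sg z) := by
  set c := cpar κ X with hc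
  have hc0 : 0 < c := cpar_pos hκ X
  set t := tpar ε L κ X with ht
  have ht0 : 0 < t := tpar_pos hε hL hκ X
  have htc : t * (1 + 1 / c) ≤ 1 := by
    have h1 : t ≤ 1 / (1 + 1 / c) := min_le_left _ _
    have h2 : 0 < 1 + 1 / c := by positivity
    calc t * (1 + 1 / c) ≤ 1 / (1 + 1 / c) * (1 + 1 / c) := by (clear * - h1 hc0; gcongr)
      _ = 1 := by (clear * - hc0; field_simp)
  have htL : t * (ε + L) ≤ ε := by
    have h1 : t ≤ ε / (ε + L) := min_le_right _ _
    have h2 : 0 < ε + L := by positivity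
    calc t * (ε + L) ≤ ε / (ε + L) * (ε + L) := by (clear * - h1 hε hL; gcongr)
      _ = ε := by field_simp
  have ht1 : t ≤ 1 := by nlinarith only [htc, mul_pos ht0 (one_div_pos.2 hc0)]
  -- the three indicator functions
  set a1 : ι → ℝ := fun i => if i ∈ R1 then 1 else 0 with ha1
  set a2 : ι → ℝ := fun i => if i ∈ R2 then 1 else 0 with ha2
  set a3 : ι → ℝ := fun i => if i ∈ R3 then 1 else 0 with ha3
  have i1 : ∀ i, 0 ≤ a1 i := fun i => by simp only [ha1]; split_ifs <;> norm_num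
  have i2 : ∀ i, 0 ≤ a2 i := fun i => by simp only [ha2]; split_ifs <;> norm_num
  have i3 : ∀ i, 0 ≤ a3 i := fun i => by simp only [ha3]; split_ifs <;> norm_num
  -- concavity
  have hconc := ev_concave hK hk (w := fun i => L * a1 i + ε * a2 i + ε * a3 i)
    (fun i => by have := i1 i; have := i2 i; have := i3 i; (clear * - hL hε; positivity)) z ht0.le ht1
  -- the transfer path
  set b : ι → ℝ := fun i => if i ∈ R3.image ρ then 1 else 0 with hb
  have ib : ∀ i, 0 ≤ b i := fun i => by simp only [hb]; split_ifs <;> norm_num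
  have hpath : ev K (fun i => k i + t * (L * a1 i + ε * a2 i + ε * a3 i)) (sg z)
      ≤ ev K (fun i => k i + t * (L * a1 i + ε * a2 i + ε * a3 i)
          + (t * ε) * (1 / c * b i - a3 i)) (sg z) := by
    refine ev_line_mono fun τ hτ => ?_
    rw [cov_linear]
    set h' : ι → ℝ := fun i => k i + t * (L * a1 i + ε * a2 i + ε * a3 i)
      + τ * ((t * ε) * (1 / c * b i - a3 i)) with hh'
    have htr : ∀ u ∈ R3, c * cov K h' (sg z) (sg u) ≤ cov K h' (sg z) (sg (ρ u)) := by
      intro u hu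
      obtain ⟨hr2, hrκ, hrz⟩ := hρ u hu
      have hne : u ≠ ρ u := by
        intro h
        exact (Finset.disjoint_left.1 h23 hr2) (h ▸ hu)
      refine transfer hK hrz hne hκ.le hrκ ?_
      refine le_trans ?_ (hX (ρ u))
      gcongr
      have e1 : a1 (ρ u) = 0 := if_neg fun h => (Finset.disjoint_left.1 h12 h) hr2
      have e2 : a2 (ρ u) = 1 := if_pos hr2
      have e3 : a3 (ρ u) = 0 := if_neg fun h => (Finset.disjoint_left.1 h23 hr2) h
      have e4 : b (ρ u) = 1 := if_pos (Finset.mem_image_of_mem _ hu)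
      simp only [hh']
      rw [e1, e2, e3, e4]
      have hk' := hk (ρ u)
      rw [abs_of_nonneg]
      · have : τ * (t * ε * (1 / c * 1 - 0)) ≤ t * ε * (1 / c) := by
          have h1 : 0 ≤ t * ε * (1 / c) := by (clear * - ht0 hε hc0; positivity)
          calc τ * (t * ε * (1 / c * 1 - 0)) = τ * (t * ε * (1 / c)) := by ring
            _ ≤ 1 * (t * ε * (1 / c)) := by gcongr; exact hτ.2
            _ = _ := one_mul _
        have h3 : t * (1 + 1 / c) * ε ≤ 1 * ε := by (clear * - htc hε; gcongr)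
        linarith only [this, h3]
      · have h1 : 0 ≤ τ := hτ.1
        have : 0 ≤ τ * (t * ε * (1 / c * 1 - 0)) := by
          rw [mul_one, sub_zero]; (clear * - h1 ht0 hε hc0; positivity)
        have : 0 ≤ t * (L * 0 + ε * 1 + ε * 0) := by
          have : L * 0 + ε * 1 + ε * 0 = ε := by ring
          rw [this]; positivity
        (clear K hK R1 R2 R3 h12 h23 z hρ hinj hX hc ht htc htL ht1 a1 ha1 a2 ha2 a3 ha3 i1 i2 i3 hconc b hb ib h' hh' hu hr2 hrκ hrz hne e1 e2 e3 e4; linarith)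
    have hsum : ∑ i, t * ε * (1 / c * b i - a3 i) * cov K h' (sg z) (sg i)
        = t * ε * (1 / c) * ∑ u ∈ R3, cov K h' (sg z) (sg (ρ u))
          - t * ε * ∑ u ∈ R3, cov K h' (sg z) (sg u) := by
      have s1 : ∑ i, b i * cov K h' (sg z) (sg i) = ∑ u ∈ R3, cov K h' (sg z) (sg (ρ u)) := by
        simp only [hb, ite_mul, one_mul, zero_mul, Finset.sum_ite_mem, Finset.univ_inter]
        rw [Finset.sum_image hinj]
      have s2 : ∑ i, a3 i * cov K h' (sg z) (sg i) = ∑ u ∈ R3, cov K h' (sg z) (sg u) := by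
        simp only [ha3, ite_mul, one_mul, zero_mul, Finset.sum_ite_mem, Finset.univ_inter]
      rw [← s1, ← s2, Finset.mul_sum, Finset.mul_sum, ← Finset.sum_sub_distrib]
      exact Finset.sum_congr rfl fun i _ => by ring
    rw [hsum]
    have hle : c * ∑ u ∈ R3, cov K h' (sg z) (sg u) ≤ ∑ u ∈ R3, cov K h' (sg z) (sg (ρ u)) := by
      rw [Finset.mul_sum]
      exact Finset.sum_le_sum htr
    have h1 : t * ε * ∑ u ∈ R3, cov K h' (sg z) (sg u)
        = t * ε * (1 / c) * (c * ∑ u ∈ R3, cov K h' (sg z) (sg u)) := by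
      (clear * - hc0 hε ht0; field_simp)
    rw [h1, ← mul_sub]
    exact mul_nonneg (by positivity) (sub_nonneg.2 hle)
  -- the end point of the path is below the target field
  have hend : ev K (fun i => k i + t * (L * a1 i + ε * a2 i + ε * a3 i)
          + (t * ε) * (1 / c * b i - a3 i)) (sg z)
      ≤ ev K (fun i => k i + (ε * a1 i + ε * a2 i)) (sg z) := by
    refine ev_mono_field hK (sg_mono z) fun i => ?_
    have hb2 : b i ≤ a2 i := by
      simp only [hb, ha2]
      by_cases hi : i ∈ R3.image ρ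
      · obtain ⟨u, hu, rfl⟩ := Finset.mem_image.1 hi
        rw [if_pos hi, if_pos (hρ u hu).1]
      · rw [if_neg hi]; split_ifs <;> norm_num
    have j1 : t * (L * a1 i) ≤ ε * a1 i := by
      have : t * L ≤ ε := by nlinarith only [htL, ht0, hε]
      calc t * (L * a1 i) = (t * L) * a1 i := by ring
        _ ≤ ε * a1 i := mul_le_mul_of_nonneg_right this (i1 i)
    have j2 : t * (ε * a2 i) + (t * ε) * (1 / c * b i) ≤ ε * a2 i := by
      have e1 : (t * ε) * (1 / c * b i) ≤ (t * ε) * (1 / c * a2 i) := by (clear * - hb2 hc0 ht0 hε; gcongr)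
      have e2 : t * (ε * a2 i) + (t * ε) * (1 / c * a2 i) = (t * (1 + 1 / c)) * (ε * a2 i) := by
        ring
      have e3 : (t * (1 + 1 / c)) * (ε * a2 i) ≤ 1 * (ε * a2 i) :=
        mul_le_mul_of_nonneg_right htc (mul_nonneg hε.le (i2 i))
      linarith only [e1, e3]
    linarith only [j1, j2]
  linarith only [hconc, hpath, hend]

end Vale.Agent.P144
end
end

section

section

namespace Vale.Agent.P144

open Finset

/-- `W` contains `Λ` and everything that interacts with it -/
def Window (Λ W : Finset Site) : Prop := Λ ⊆ W ∧ ∀ u ∈ Λ, ∀ v, dsq u v ≤ 5 → v ∈ W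

open Classical in
/-- the energy as a double sum over ordered pairs -/
theorem energy_pairs {J lam lam' : ℝ} {V : Finset Site → ℝ}
    (hPhi : ∀ u v, Phi J lam V {u, v} = cpl J lam' u v)
    (hsupp : ∀ A, Phi J lam V A ≠ 0 → ∃ u v, u ≠ v ∧ dsq u v ≤ 5 ∧ A = {u, v})
    {Λ W : Finset Site} (hW : Window Λ W) {P : Finset Site → Prop} {Q : Site → Prop}
    (hP : ∀ u v, P {u, v} ↔ (u ∈ Λ ∨ v ∈ Λ) ∧ Q u ∧ Q v) (σ : Config) :
    energy J lam V P σ = -(1 / 2 * ∑ u ∈ W, ∑ v ∈ W,
      if (u ∈ Λ ∨ v ∈ Λ) ∧ Q u ∧ Q v then cpl J lam' u v * (sp (σ u) * sp (σ v)) else 0) := by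
  set g : Finset Site → ℝ := fun A => if P A then Phi J lam V A * ∏ x ∈ A, sp (σ x) else 0 with hg
  have h1 : ∑ᶠ (A : Finset Site) (_ : P A), Phi J lam V A * ∏ x ∈ A, sp (σ x)
      = ∑ A ∈ W.powersetCard 2, g A := by
    have e1 : ∑ᶠ (A : Finset Site) (_ : P A), Phi J lam V A * ∏ x ∈ A, sp (σ x)
        = ∑ᶠ A : Finset Site, g A := by
      refine finsum_congr fun A => ?_
      rw [finsum_eq_if]
    rw [e1]
    refine finsum_eq_sum_of_support_subset _ ?_
    intro A hA
    have hA' : g A ≠ 0 := hA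
    simp only [hg] at hA'
    have hPA : P A := by by_contra h; simp [h] at hA'
    rw [if_pos hPA] at hA'
    obtain ⟨u, v, hne, hd, rfl⟩ := hsupp A (left_ne_zero_of_mul hA')
    have hd' : dsq v u ≤ 5 := by rwa [dsq_comm]
    rw [Finset.mem_coe, Finset.mem_powersetCard]
    refine ⟨?_, Finset.card_pair hne⟩
    have huv : u ∈ W ∧ v ∈ W := by
      rcases ((hP u v).1 hPA).1 with h | h
      · exact ⟨hW.1 h, hW.2 u h v hd⟩
      · exact ⟨hW.2 v h u hd', hW.1 h⟩
    intro x hx
    simp only [Finset.mem_insert, Finset.mem_singleton] at hx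
    rcases hx with rfl | rfl
    · exact huv.1
    · exact huv.2
  have h2 : energy J lam V P σ = -∑ A ∈ W.powersetCard 2, g A := by
    rw [← h1]
    rfl
  have h3 := pair_sum W g
  have h4 : ∑ p ∈ W.offDiag, g {p.1, p.2} = ∑ u ∈ W, ∑ v ∈ W,
      if (u ∈ Λ ∨ v ∈ Λ) ∧ Q u ∧ Q v then cpl J lam' u v * (sp (σ u) * sp (σ v)) else 0 := by
    rw [← Finset.sum_product']
    have hsub : W.offDiag ⊆ W ×ˢ W := by
      intro p hp
      rw [Finset.mem_offDiag] at hp
      exact Finset.mem_product.2 ⟨hp.1, hp.2.1⟩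
    rw [← Finset.sum_subset hsub (f := fun p : Site × Site =>
      if (p.1 ∈ Λ ∨ p.2 ∈ Λ) ∧ Q p.1 ∧ Q p.2
        then cpl J lam' p.1 p.2 * (sp (σ p.1) * sp (σ p.2)) else 0)]
    · refine Finset.sum_congr rfl fun p hp => ?_
      rw [Finset.mem_offDiag] at hp
      simp only [hg]
      by_cases h : (p.1 ∈ Λ ∨ p.2 ∈ Λ) ∧ Q p.1 ∧ Q p.2
      · rw [if_pos h, if_pos ((hP _ _).2 h), hPhi, Finset.prod_pair hp.2.2]
      · rw [if_neg h, if_neg fun h' => h ((hP _ _).1 h')]
    · intro p hp hp'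
      rw [Finset.mem_product] at hp
      rw [Finset.mem_offDiag] at hp'
      have : p.1 = p.2 := by
        by_contra hne
        exact hp' ⟨hp.1, hp.2, hne⟩
      rw [this, cpl_self]
      simp
  rw [h2, ← h4, h3]
  ring

open Classical in
/-- field at `u` created by the outside configuration `η` -/
noncomputable def fld (J lam : ℝ) (Λ W : Finset Site) (Q : Site → Prop) (η : Config)
    (u : Site) : ℝ :=
  ∑ v ∈ W, if v ∉ Λ ∧ Q v then cpl J lam u v * sp (η v) else 0

/-- The spins `s` in `Λ`, extended outside `Λ` by the configuration `η`. -/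
def exs (Λ : Finset Site) (η : Config) (s : Λ → Bool) : Config :=
  fun x => if h : x ∈ Λ then s ⟨x, h⟩ else η x

theorem exs_mem {Λ : Finset Site} {η : Config} {s : Λ → Bool} {x : Site} (h : x ∈ Λ) :
    exs Λ η s x = s ⟨x, h⟩ := by simp [exs, h]

theorem exs_not_mem {Λ : Finset Site} {η : Config} {s : Λ → Bool} {x : Site} (h : x ∉ Λ) :
    exs Λ η s x = η x := by simp [exs, h]

/-- summing over subsets is summing over spin configurations -/
theorem sum_ext (Λ : Finset Site) (η : Config) (g : Config → ℝ) :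
    ∑ T ∈ Λ.powerset, g (ext Λ η T) = ∑ s : Λ → Bool, g (exs Λ η s) := by
  refine Finset.sum_bij' (fun T _ => fun i : Λ => decide ((i : Site) ∈ T))
    (fun s _ => (univ.filter fun i : Λ => s i = true).map (Function.Embedding.subtype _))
    ?_ ?_ ?_ ?_ ?_
  · intro T _; exact Finset.mem_univ _
  · intro s _
    rw [Finset.mem_powerset]
    intro x hx
    rw [Finset.mem_map] at hx
    obtain ⟨i, _, rfl⟩ := hx
    exact i.2
  · intro T hT
    rw [Finset.mem_powerset] at hT
    ext x
    simp only [Finset.mem_map, Finset.mem_filter, Finset.mem_univ, true_and, decide_eq_true_eq,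
      Function.Embedding.subtype_apply]
    constructor
    · rintro ⟨i, hi, rfl⟩; exact hi
    · intro hx; exact ⟨⟨x, hT hx⟩, hx, rfl⟩
  · intro s _
    funext i
    have : ((i : Site) ∈ (univ.filter fun i : Λ => s i = true).map
        (Function.Embedding.subtype _)) ↔ s i = true := by
      simp only [Finset.mem_map, Finset.mem_filter, Finset.mem_univ, true_and,
        Function.Embedding.subtype_apply]
      constructor
      · rintro ⟨j, hj, hji⟩
        rw [← Subtype.ext hji]; exact hj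
      · intro h; exact ⟨i, h, rfl⟩
    simp only [this, Bool.decide_eq_true]
  · intro T _
    rfl

open Classical in
theorem energy_ext {J lam lam' : ℝ} {V : Finset Site → ℝ}
    (hPhi : ∀ u v, Phi J lam V {u, v} = cpl J lam' u v)
    (hsupp : ∀ A, Phi J lam V A ≠ 0 → ∃ u v, u ≠ v ∧ dsq u v ≤ 5 ∧ A = {u, v})
    {Λ W : Finset Site} (hW : Window Λ W) {P : Finset Site → Prop} {Q : Site → Prop}
    (hP : ∀ u v, P {u, v} ↔ (u ∈ Λ ∨ v ∈ Λ) ∧ Q u ∧ Q v) (hQ : ∀ u ∈ Λ, Q u)
    (η : Config) (s : Λ → Bool) :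
    -energy J lam V P (exs Λ η s) = ∑ i : Λ, ∑ j : Λ, 1 / 2 * cpl J lam' i j * (sp (s i) * sp (s j))
      + ∑ i : Λ, fld J lam' Λ W Q η i * sp (s i) := by
  rw [energy_pairs hPhi hsupp hW hP, neg_neg]
  set σ := exs Λ η s with hσ
  set f : Site → Site → ℝ := fun u v => cpl J lam' u v * (sp (σ u) * sp (σ v)) with hf
  have hsymm : ∀ u v, f u v = f v u := fun u v => by
    simp only [hf]; rw [cpl_comm]; ring
  have h1 : ∀ u v, (if (u ∈ Λ ∨ v ∈ Λ) ∧ Q u ∧ Q v then f u v else 0)
      = (if u ∈ Λ then (if v ∈ Λ then f u v else 0) else 0)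
        + (if u ∈ Λ then (if v ∉ Λ ∧ Q v then f u v else 0) else 0)
        + (if v ∈ Λ then (if u ∉ Λ ∧ Q u then f v u else 0) else 0) := by
    intro u v
    rw [hsymm v u]
    by_cases hu : u ∈ Λ <;> by_cases hv : v ∈ Λ
    · have := hQ u hu; have := hQ v hv; simp [*]
    · have := hQ u hu; simp [*]
    · have := hQ v hv; simp [*]
    · simp [*]
  have h2 : ∑ u ∈ W, ∑ v ∈ W, (if (u ∈ Λ ∨ v ∈ Λ) ∧ Q u ∧ Q v then f u v else 0)
      = ∑ u ∈ W, (if u ∈ Λ then ∑ v ∈ W, (if v ∈ Λ then f u v else 0) else 0)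
        + 2 * ∑ u ∈ W, (if u ∈ Λ then ∑ v ∈ W, (if v ∉ Λ ∧ Q v then f u v else 0) else 0) := by
    simp only [h1, Finset.sum_add_distrib]
    have e1 : ∑ u ∈ W, ∑ v ∈ W, (if v ∈ Λ then (if u ∉ Λ ∧ Q u then f v u else 0) else 0)
        = ∑ u ∈ W, ∑ v ∈ W, (if u ∈ Λ then (if v ∉ Λ ∧ Q v then f u v else 0) else 0) :=
      Finset.sum_comm
    rw [e1]
    have e2 : ∀ g : Site → Site → ℝ, ∑ u ∈ W, ∑ v ∈ W, (if u ∈ Λ then g u v else 0)
        = ∑ u ∈ W, (if u ∈ Λ then ∑ v ∈ W, g u v else 0) := by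
      intro g
      refine Finset.sum_congr rfl fun u _ => ?_
      by_cases hu : u ∈ Λ <;> simp [hu]
    rw [e2, e2]
    ring
  have e3 : ∀ g : Site → ℝ, ∑ u ∈ W, (if u ∈ Λ then g u else 0) = ∑ i : Λ, g i := by
    intro g
    rw [Finset.sum_ite_mem, Finset.inter_eq_right.2 hW.1, ← Finset.sum_coe_sort]
  show 1 / 2 * ∑ u ∈ W, ∑ v ∈ W, (if (u ∈ Λ ∨ v ∈ Λ) ∧ Q u ∧ Q v then f u v else 0) = _
  rw [h2, e3, e3, mul_add, ← mul_assoc, show (1 / 2 : ℝ) * 2 = 1 by norm_num, one_mul,
    Finset.mul_sum]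
  congr 1
  · refine Finset.sum_congr rfl fun i _ => ?_
    rw [e3, Finset.mul_sum]
    refine Finset.sum_congr rfl fun j _ => ?_
    simp only [hf, hσ, exs_mem i.2, exs_mem j.2]
    ring
  · refine Finset.sum_congr rfl fun i _ => ?_
    unfold fld
    rw [Finset.sum_mul]
    refine Finset.sum_congr rfl fun v _ => ?_
    by_cases hv : v ∉ Λ ∧ Q v
    · rw [if_pos hv, if_pos hv]
      simp only [hf, hσ, exs_mem i.2, exs_not_mem hv.1]
      ring
    · rw [if_neg hv, if_neg hv, zero_mul]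

/-- the couplings of the finite Ising model in `Λ` -/
noncomputable def KK (β J lam : ℝ) (Λ : Finset Site) (i j : Λ) : ℝ := β / 2 * cpl J lam i j

open Classical in
theorem expect_eq_ev {β J lam lam' : ℝ} {V : Finset Site → ℝ}
    (hPhi : ∀ u v, Phi J lam V {u, v} = cpl J lam' u v)
    (hsupp : ∀ A, Phi J lam V A ≠ 0 → ∃ u v, u ≠ v ∧ dsq u v ≤ 5 ∧ A = {u, v})
    {Λ W : Finset Site} (hW : Window Λ W) {P : Finset Site → Prop} {Q : Site → Prop}
    (hP : ∀ u v, P {u, v} ↔ (u ∈ Λ ∨ v ∈ Λ) ∧ Q u ∧ Q v) (hQ : ∀ u ∈ Λ, Q u)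
    (η : Config) (F : Config → ℝ) :
    expect β (energy J lam V P) Λ η F
      = ev (KK β J lam' Λ) (fun i : Λ => β * fld J lam' Λ W Q η i) (fun s => F (exs Λ η s)) := by
  have h : ∀ s : Λ → Bool, Real.exp (-β * energy J lam V P (exs Λ η s))
      = wt (KK β J lam' Λ) (fun i : Λ => β * fld J lam' Λ W Q η i) s := by
    intro s
    unfold wt ex KK
    congr 1
    have := energy_ext hPhi hsupp hW hP hQ η s
    calc -β * energy J lam V P (exs Λ η s) = β * -energy J lam V P (exs Λ η s) := by ring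
      _ = _ := by
        rw [this, mul_add, Finset.mul_sum, Finset.mul_sum]
        congr 1
        · refine Finset.sum_congr rfl fun i _ => ?_
          rw [Finset.mul_sum]
          exact Finset.sum_congr rfl fun j _ => by ring
        · exact Finset.sum_congr rfl fun i _ => by ring
  unfold expect ev
  rw [sum_ext Λ η (fun σ => F σ * Real.exp (-β * energy J lam V P σ)),
    sum_ext Λ η (fun σ => Real.exp (-β * energy J lam V P σ))]
  simp only [h]

end Vale.Agent.P144
end
end

section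

section

namespace Vale.Agent.P144

open Finset

/-- the twelve displacements with nonzero coupling -/
def DD : Finset Site :=
  {(1, 0), (-1, 0), (0, 1), (0, -1), (2, 1), (2, -1), (-2, 1), (-2, -1), (1, 2), (1, -2), (-1, 2),
    (-1, -2)}

theorem mem_DD {p q : ℤ} (h : p ^ 2 + q ^ 2 = 1 ∨ p ^ 2 + q ^ 2 = 5) : ((p, q) : Site) ∈ DD := by
  have hp : p ^ 2 ≤ 5 := by rcases h with h | h <;> nlinarith only [h]
  have hq : q ^ 2 ≤ 5 := by rcases h with h | h <;> nlinarith only [h]
  have hp1 : p ≤ 2 := by nlinarith only [hp]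
  have hp2 : -2 ≤ p := by nlinarith only [hp]
  have hq1 : q ≤ 2 := by nlinarith only [hq]
  have hq2 : -2 ≤ q := by nlinarith only [hq]
  revert h
  interval_cases p <;> interval_cases q <;> simp [DD]

theorem dsq_add (u d : Site) : dsq u (u + d) = d.1 ^ 2 + d.2 ^ 2 := by
  simp only [dsq, Prod.fst_add, Prod.snd_add]; ring

theorem nb_sum (J lam : ℝ) {Λ W : Finset Site} (hW : Window Λ W) {u : Site} (hu : u ∈ Λ)
    (G : Site → ℝ) :
    ∑ v ∈ W, cpl J lam u v * G v
      = J * (G (u + (1, 0)) + G (u + (-1, 0)) + G (u + (0, 1)) + G (u + (0, -1)))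
        + lam * (G (u + (2, 1)) + G (u + (2, -1)) + G (u + (-2, 1)) + G (u + (-2, -1))
          + G (u + (1, 2)) + G (u + (1, -2)) + G (u + (-1, 2)) + G (u + (-1, -2))) := by
  have hsub : DD.image (fun d => u + d) ⊆ W := by
    intro v hv
    obtain ⟨d, hd, rfl⟩ := Finset.mem_image.1 hv
    refine hW.2 u hu _ ?_
    rw [dsq_add]
    revert hd
    unfold DD
    simp only [Finset.mem_insert, Finset.mem_singleton]
    rintro (rfl | rfl | rfl | rfl | rfl | rfl | rfl | rfl | rfl | rfl | rfl | rfl) <;> norm_num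
  rw [← Finset.sum_subset hsub]
  · rw [Finset.sum_image (fun a _ b _ h => add_left_cancel h)]
    unfold DD
    repeat rw [Finset.sum_insert (by decide)]
    rw [Finset.sum_singleton]
    simp only [cpl, dsq_add]
    norm_num
    ring
  · intro v _ hv
    have : cpl J lam u v = 0 := by
      unfold cpl
      by_contra hne
      apply hv
      have hd : dsq u v = 1 ∨ dsq u v = 5 := by
        by_contra h
        push Not at h
        simp [h.1, h.2] at hne
      rw [Finset.mem_image]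
      refine ⟨v - u, ?_, by simp⟩
      have e : (v - u).1 ^ 2 + (v - u).2 ^ 2 = dsq u v := by
        simp only [dsq, Prod.fst_sub, Prod.snd_sub]; ring
      exact mem_DD (p := (v - u).1) (q := (v - u).2) (by rw [e]; exact hd)
    rw [this, zero_mul]

/-- the parity sign -/
noncomputable def par (n : ℤ) : ℝ := sp (decide (Even n))

theorem par_add_one (n : ℤ) : par (n + 1) = - par n := by
  unfold par
  by_cases h : Even n
  · have h' : ¬ Even (n + 1) := by rw [Int.not_even_iff_odd]; exact h.add_one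
    simp only [sp, h', decide_false, Bool.false_eq_true, ↓reduceIte, h, decide_true]
  · have h' : Even (n + 1) := by rw [Int.not_even_iff_odd] at h; exact h.add_one
    simp only [sp, h', decide_true, ↓reduceIte, h, decide_false, Bool.false_eq_true, neg_neg]

theorem par_m1 (n : ℤ) : par (n + -1) = - par n := by
  have := par_add_one (n + -1)
  rw [show n + -1 + 1 = n by ring] at this
  linarith

theorem par_m2 (n : ℤ) : par (n + -2) = par n := by
  rw [show n + -2 = n + -1 + -1 by ring, par_m1, par_m1]; ring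

/-- alternating on the closed lower half-plane, plus elsewhere -/
def bc0 (v : Site) : Bool := if v.1 + v.2 ≤ 0 then decide (Even v.1) else true

/-- alternating on the line only, plus elsewhere -/
def bc1 (v : Site) : Bool := if v.1 + v.2 = 0 then decide (Even v.1) else true

/-- plus -/
def bcp (_ : Site) : Bool := true

theorem fld_sub (J lam : ℝ) (Λ W : Finset Site) (η η' : Config) (u : Site) :
    fld J lam Λ W (fun _ => True) η u - fld J lam Λ W (fun _ => True) η' u
      = ∑ v ∈ W, cpl J lam u v * (if v ∉ Λ then sp (η v) - sp (η' v) else 0) := by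
  unfold fld
  rw [← Finset.sum_sub_distrib]
  refine Finset.sum_congr rfl fun v _ => ?_
  by_cases hv : v ∈ Λ
  · simp [hv]
  · simp [hv]; ring

theorem fld_bc1_sub_bc0 (J lam : ℝ) {Λ W : Finset Site} (hW : Window Λ W)
    (hΛ : ∀ x ∈ Λ, 0 < x.1 + x.2) {u : Site} (hu : u ∈ Λ) :
    fld J lam Λ W (fun _ => True) bc1 u - fld J lam Λ W (fun _ => True) bc0 u
      = 2 * lam * (if u.1 + u.2 = 1 then 1 else 0) + 2 * lam * (if u.1 + u.2 = 2 then 1 else 0) := by
  rw [fld_sub]
  have e : ∀ v ∈ W, cpl J lam u v * (if v ∉ Λ then sp (bc1 v) - sp (bc0 v) else 0)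
      = cpl J lam u v * (if v.1 + v.2 < 0 then 1 - par v.1 else 0) := by
    intro v _
    congr 1
    by_cases h : v.1 + v.2 < 0
    · have hv : v ∉ Λ := fun hv => by have := hΛ v hv; omega
      have h1 : ¬ v.1 + v.2 = 0 := by omega
      have h2 : v.1 + v.2 ≤ 0 := by omega
      simp only [hv, not_false_iff, if_true, h, bc1, bc0, h1, h2, if_false, par, sp_true]
    · rw [if_neg h]
      by_cases hv : v ∉ Λ
      · rw [if_pos hv]
        by_cases h1 : v.1 + v.2 = 0
        · simp only [bc1, h1, ↓reduceIte, bc0, Std.le_refl, sub_self]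
        · have h2 : ¬ v.1 + v.2 ≤ 0 := by omega
          simp [bc1, bc0, h1, h2]
      · rw [if_neg hv]
  rw [Finset.sum_congr rfl e, nb_sum J lam hW hu]
  have hs := hΛ u hu
  simp only [Prod.fst_add, Prod.snd_add]
  rcases lt_or_ge (u.1 + u.2) 3 with h3 | h3
  · have hc : u.1 + u.2 = 1 ∨ u.1 + u.2 = 2 := by omega
    rcases hc with hc | hc
    · rw [if_pos hc, if_neg (show ¬ u.1 + u.2 = 2 by omega),
        if_neg (show ¬ u.1 + 1 + (u.2 + 0) < 0 by omega),
        if_neg (show ¬ u.1 + -1 + (u.2 + 0) < 0 by omega),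
        if_neg (show ¬ u.1 + 0 + (u.2 + 1) < 0 by omega),
        if_neg (show ¬ u.1 + 0 + (u.2 + -1) < 0 by omega),
        if_neg (show ¬ u.1 + 2 + (u.2 + 1) < 0 by omega),
        if_neg (show ¬ u.1 + 2 + (u.2 + -1) < 0 by omega),
        if_neg (show ¬ u.1 + -2 + (u.2 + 1) < 0 by omega),
        if_pos (show u.1 + -2 + (u.2 + -1) < 0 by omega),
        if_neg (show ¬ u.1 + 1 + (u.2 + 2) < 0 by omega),
        if_neg (show ¬ u.1 + 1 + (u.2 + -2) < 0 by omega),
        if_neg (show ¬ u.1 + -1 + (u.2 + 2) < 0 by omega),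
        if_pos (show u.1 + -1 + (u.2 + -2) < 0 by omega), par_m2, par_m1]
      ring
    · rw [if_neg (show ¬ u.1 + u.2 = 1 by omega), if_pos hc,
        if_neg (show ¬ u.1 + 1 + (u.2 + 0) < 0 by omega),
        if_neg (show ¬ u.1 + -1 + (u.2 + 0) < 0 by omega),
        if_neg (show ¬ u.1 + 0 + (u.2 + 1) < 0 by omega),
        if_neg (show ¬ u.1 + 0 + (u.2 + -1) < 0 by omega),
        if_neg (show ¬ u.1 + 2 + (u.2 + 1) < 0 by omega),
        if_neg (show ¬ u.1 + 2 + (u.2 + -1) < 0 by omega),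
        if_neg (show ¬ u.1 + -2 + (u.2 + 1) < 0 by omega),
        if_pos (show u.1 + -2 + (u.2 + -1) < 0 by omega),
        if_neg (show ¬ u.1 + 1 + (u.2 + 2) < 0 by omega),
        if_neg (show ¬ u.1 + 1 + (u.2 + -2) < 0 by omega),
        if_neg (show ¬ u.1 + -1 + (u.2 + 2) < 0 by omega),
        if_pos (show u.1 + -1 + (u.2 + -2) < 0 by omega), par_m2, par_m1]
      ring
  · rw [if_neg (show ¬ u.1 + u.2 = 1 by omega), if_neg (show ¬ u.1 + u.2 = 2 by omega),
        if_neg (show ¬ u.1 + 1 + (u.2 + 0) < 0 by omega),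
        if_neg (show ¬ u.1 + -1 + (u.2 + 0) < 0 by omega),
        if_neg (show ¬ u.1 + 0 + (u.2 + 1) < 0 by omega),
        if_neg (show ¬ u.1 + 0 + (u.2 + -1) < 0 by omega),
        if_neg (show ¬ u.1 + 2 + (u.2 + 1) < 0 by omega),
        if_neg (show ¬ u.1 + 2 + (u.2 + -1) < 0 by omega),
        if_neg (show ¬ u.1 + -2 + (u.2 + 1) < 0 by omega),
        if_neg (show ¬ u.1 + -2 + (u.2 + -1) < 0 by omega),
        if_neg (show ¬ u.1 + 1 + (u.2 + 2) < 0 by omega),
        if_neg (show ¬ u.1 + 1 + (u.2 + -2) < 0 by omega),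
        if_neg (show ¬ u.1 + -1 + (u.2 + 2) < 0 by omega),
        if_neg (show ¬ u.1 + -1 + (u.2 + -2) < 0 by omega)]
    ring

/-- neighbour sums of functions supported in the closed lower half-plane -/
theorem half_sum (J lam : ℝ) {Λ W : Finset Site} (hW : Window Λ W)
    (hΛ : ∀ x ∈ Λ, 0 < x.1 + x.2) {u : Site} (hu : u ∈ Λ) (g : ℤ → ℝ) :
    ∑ v ∈ W, cpl J lam u v * (if v.1 + v.2 ≤ 0 then g v.1 else 0)
      = (J * (g (u.1 + -1) + g u.1) + lam * (g (u.1 + -2) + g (u.1 + 1)))
          * (if u.1 + u.2 = 1 then 1 else 0)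
        + lam * (g (u.1 + -2) + g (u.1 + -1)) * (if u.1 + u.2 ≤ 3 then 1 else 0) := by
  rw [nb_sum J lam hW hu]
  have hs := hΛ u hu
  simp only [Prod.fst_add, Prod.snd_add]
  rw [if_neg (show ¬ u.1 + 1 + (u.2 + 0) ≤ 0 by omega),
    if_neg (show ¬ u.1 + 0 + (u.2 + 1) ≤ 0 by omega),
    if_neg (show ¬ u.1 + 2 + (u.2 + 1) ≤ 0 by omega),
    if_neg (show ¬ u.1 + 2 + (u.2 + -1) ≤ 0 by omega),
    if_neg (show ¬ u.1 + 1 + (u.2 + 2) ≤ 0 by omega),
    if_neg (show ¬ u.1 + -1 + (u.2 + 2) ≤ 0 by omega)]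
  by_cases h1 : u.1 + u.2 = 1
  · rw [if_pos h1, if_pos (show u.1 + u.2 ≤ 3 by omega),
      if_pos (show u.1 + -1 + (u.2 + 0) ≤ 0 by omega),
      if_pos (show u.1 + 0 + (u.2 + -1) ≤ 0 by omega),
      if_pos (show u.1 + -2 + (u.2 + 1) ≤ 0 by omega),
      if_pos (show u.1 + -2 + (u.2 + -1) ≤ 0 by omega),
      if_pos (show u.1 + 1 + (u.2 + -2) ≤ 0 by omega),
      if_pos (show u.1 + -1 + (u.2 + -2) ≤ 0 by omega), add_zero]
    ring_nf
  · rw [if_neg h1,
      if_neg (show ¬ u.1 + -1 + (u.2 + 0) ≤ 0 by omega),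
      if_neg (show ¬ u.1 + 0 + (u.2 + -1) ≤ 0 by omega),
      if_neg (show ¬ u.1 + -2 + (u.2 + 1) ≤ 0 by omega),
      if_neg (show ¬ u.1 + 1 + (u.2 + -2) ≤ 0 by omega)]
    by_cases h3 : u.1 + u.2 ≤ 3
    · rw [if_pos h3,
        if_pos (show u.1 + -2 + (u.2 + -1) ≤ 0 by omega),
        if_pos (show u.1 + -1 + (u.2 + -2) ≤ 0 by omega)]
      ring
    · rw [if_neg h3,
        if_neg (show ¬ u.1 + -2 + (u.2 + -1) ≤ 0 by omega),
        if_neg (show ¬ u.1 + -1 + (u.2 + -2) ≤ 0 by omega)]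
      ring

theorem fld_plus_sub_bc0 (J lam : ℝ) {Λ W : Finset Site} (hW : Window Λ W)
    (hΛ : ∀ x ∈ Λ, 0 < x.1 + x.2) {u : Site} (hu : u ∈ Λ) :
    fld J lam Λ W (fun _ => True) bcp u - fld J lam Λ W (fun _ => True) bc0 u
      = (2 * J + 4 * lam) * (if u.1 + u.2 = 1 then 1 else 0)
        + 2 * lam * (if u.1 + u.2 = 2 then 1 else 0)
        + 2 * lam * (if u.1 + u.2 = 3 then 1 else 0) := by
  rw [fld_sub]
  have e : ∀ v ∈ W, cpl J lam u v * (if v ∉ Λ then sp (bcp v) - sp (bc0 v) else 0)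
      = cpl J lam u v * (if v.1 + v.2 ≤ 0 then 1 - par v.1 else 0) := by
    intro v _
    congr 1
    by_cases h : v.1 + v.2 ≤ 0
    · have hv : v ∉ Λ := fun hv => by have := hΛ v hv; omega
      simp only [hv, not_false_iff, if_true, h, bcp, bc0, par, sp_true]
    · rw [if_neg h]
      by_cases hv : v ∉ Λ
      · rw [if_pos hv]
        simp [bcp, bc0, h]
      · rw [if_neg hv]
  rw [Finset.sum_congr rfl e, half_sum J lam hW hΛ hu (fun n => 1 - par n)]
  have hs := hΛ u hu
  simp only [par_m1, par_m2, par_add_one]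
  rcases lt_or_ge (u.1 + u.2) 4 with h3 | h3
  · have hc : u.1 + u.2 = 1 ∨ u.1 + u.2 = 2 ∨ u.1 + u.2 = 3 := by omega
    rw [if_pos (show u.1 + u.2 ≤ 3 by omega)]
    rcases hc with hc | hc | hc
    · rw [if_pos hc, if_neg (show ¬ u.1 + u.2 = 2 by omega),
        if_neg (show ¬ u.1 + u.2 = 3 by omega)]
      ring
    · rw [if_pos hc, if_neg (show ¬ u.1 + u.2 = 1 by omega),
        if_neg (show ¬ u.1 + u.2 = 3 by omega)]
      ring
    · rw [if_pos hc, if_neg (show ¬ u.1 + u.2 = 1 by omega),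
        if_neg (show ¬ u.1 + u.2 = 2 by omega)]
      ring
  · rw [if_neg (show ¬ u.1 + u.2 ≤ 3 by omega), if_neg (show ¬ u.1 + u.2 = 1 by omega),
      if_neg (show ¬ u.1 + u.2 = 2 by omega), if_neg (show ¬ u.1 + u.2 = 3 by omega)]
    ring

/-- the field of `bc0` only comes from the plus spins off the lower half-plane -/
theorem fld_bc0 (J lam : ℝ) {Λ W : Finset Site} (hW : Window Λ W)
    (hΛ : ∀ x ∈ Λ, 0 < x.1 + x.2) {u : Site} (hu : u ∈ Λ) :
    fld J lam Λ W (fun _ => True) bc0 u = fld J lam Λ W (fun v => 0 < v.1 + v.2) bcp u := by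
  have h0 : ∑ v ∈ W, cpl J lam u v * (if v.1 + v.2 ≤ 0 then par v.1 else 0) = 0 := by
    rw [half_sum J lam hW hΛ hu, par_m1, par_m2, par_add_one]
    ring
  rw [← add_zero (fld J lam Λ W (fun v => 0 < v.1 + v.2) bcp u), ← h0]
  unfold fld
  rw [← Finset.sum_add_distrib]
  refine Finset.sum_congr rfl fun v _ => ?_
  by_cases h : v.1 + v.2 ≤ 0
  · have hv : v ∉ Λ := fun hv => by have := hΛ v hv; omega
    simp only [hv, h, bc0, par, if_true, not_false_iff, and_true, true_and,
      if_neg (show ¬ 0 < v.1 + v.2 by omega)]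
    ring
  · have h' : 0 < v.1 + v.2 := by omega
    simp only [h, h', bc0, bcp, if_false, and_true, mul_zero, add_zero]

theorem fld_bc0_nonneg {J lam : ℝ} (hJ : 0 ≤ J) (hl : 0 ≤ lam) {Λ W : Finset Site}
    (hW : Window Λ W) (hΛ : ∀ x ∈ Λ, 0 < x.1 + x.2) {u : Site} (hu : u ∈ Λ) :
    0 ≤ fld J lam Λ W (fun _ => True) bc0 u := by
  rw [fld_bc0 J lam hW hΛ hu]
  unfold fld
  refine Finset.sum_nonneg fun v _ => ?_
  split_ifs
  · simp only [bcp, sp_true, mul_one]
    exact cpl_nonneg hJ hl _ _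
  · exact le_rfl

/-- at `λ = 0` the condition `bc1` gives the same field as `bc0` -/
theorem fld_bc1_zero (J : ℝ) {Λ W : Finset Site} (hW : Window Λ W)
    (hΛ : ∀ x ∈ Λ, 0 < x.1 + x.2) {u : Site} (hu : u ∈ Λ) :
    fld J 0 Λ W (fun _ => True) bc1 u = fld J 0 Λ W (fun _ => True) bc0 u := by
  have := fld_bc1_sub_bc0 J 0 hW hΛ hu
  simp only [mul_zero, zero_mul, add_zero] at this
  linarith only [this]

/-- a bound for all fields and coupling sums -/
theorem cpl_sum_le (J lam : ℝ) {Λ W : Finset Site}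
    (hW : Window Λ W) {u : Site} (hu : u ∈ Λ) :
    ∑ v ∈ W, cpl J lam u v = 4 * J + 8 * lam := by
  have := nb_sum J lam hW hu (fun _ => 1)
  simp only [mul_one] at this
  rw [this]
  ring

theorem fld_le {J lam : ℝ} (hJ : 0 ≤ J) (hl : 0 ≤ lam) {Λ W : Finset Site}
    (hW : Window Λ W) (Q : Site → Prop) (η : Config) {u : Site} (hu : u ∈ Λ) :
    fld J lam Λ W Q η u ≤ 4 * J + 8 * lam := by
  rw [← cpl_sum_le J lam hW hu]
  unfold fld
  refine Finset.sum_le_sum fun v _ => ?_
  have := cpl_nonneg hJ hl u v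
  split_ifs
  · calc cpl J lam u v * sp (η v) ≤ cpl J lam u v * 1 := by
          gcongr; exact sp_le_one _
      _ = _ := mul_one _
  · exact this

end Vale.Agent.P144
end
end

section

section

namespace Vale.Agent.P144

open Finset Filter Topology

theorem sites_finite {D : Set ℂ} (hD : Bornology.IsBounded D) {a : ℝ} (ha : 0 < a) :
    (sites D a).Finite := by
  obtain ⟨r, hr⟩ := hD.subset_closedBall 0
  refine Set.Finite.subset (Set.Finite.prod (Set.finite_Icc (-⌈r / a⌉) ⌈r / a⌉)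
    (Set.finite_Icc (-⌈r / a⌉) ⌈r / a⌉)) ?_
  intro x hx
  have h1 : (⟨a * x.1, a * x.2⟩ : ℂ) ∈ D := hx
  have h2 := hr h1
  rw [mem_closedBall_zero_iff] at h2
  have aux : ∀ n : ℤ, |a * n| ≤ r → n ∈ Set.Icc (-⌈r / a⌉) ⌈r / a⌉ := by
    intro n hn
    rw [abs_mul, abs_of_pos ha] at hn
    have h3 : |(n : ℝ)| ≤ r / a := by rw [le_div_iff₀ ha]; linarith
    have h4 : |(n : ℝ)| ≤ (⌈r / a⌉ : ℝ) := h3.trans (Int.le_ceil _)
    have h5 : |n| ≤ ⌈r / a⌉ := by exact_mod_cast h4
    exact abs_le.1 h5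
  exact ⟨aux _ ((Complex.abs_re_le_norm _).trans h2), aux _ ((Complex.abs_im_le_norm _).trans h2)⟩

theorem mem_disc {D : Set ℂ} (hD : Bornology.IsBounded D) {a : ℝ} (ha : 0 < a) (x : Site) :
    x ∈ disc D a ↔ (⟨a * x.1, a * x.2⟩ : ℂ) ∈ D := by
  unfold disc
  rw [dif_pos (sites_finite hD ha), Set.Finite.mem_toFinset]
  rfl

theorem Tri_bounded : Bornology.IsBounded Tri := by
  refine (Metric.isBounded_closedBall (x := (0:ℂ)) (r := 2)).subset ?_
  intro z hz
  obtain ⟨h1, h2, h3⟩ := hz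
  rw [mem_closedBall_zero_iff]
  refine (Complex.norm_le_abs_re_add_abs_im z).trans ?_
  have h4 : |z.re| ≤ 1 := by rw [abs_le]; constructor <;> linarith
  have h5 : |z.im| ≤ 1 := by rw [abs_le]; constructor <;> linarith
  linarith

theorem Tri_open : IsOpen Tri := by
  unfold Tri
  refine IsOpen.inter ?_ (IsOpen.inter ?_ ?_)
  · exact isOpen_lt continuous_const (Complex.continuous_re.add Complex.continuous_im)
  · exact isOpen_lt Complex.continuous_re continuous_const
  · exact isOpen_lt Complex.continuous_im continuous_const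

theorem Tri_connected : IsConnected Tri := by
  have hne : Tri.Nonempty := ⟨⟨1 / 2, 1 / 2⟩, by constructor <;> norm_num⟩
  have hconv : Convex ℝ Tri := by
    intro z hz w hw s t hs ht hst
    obtain ⟨h1, h2, h3⟩ := hz
    obtain ⟨g1, g2, g3⟩ := hw
    refine ⟨?_, ?_, ?_⟩
    · simp only [Complex.add_re, Complex.add_im, Complex.real_smul, Complex.mul_re,
        Complex.mul_im, Complex.ofReal_re, Complex.ofReal_im, zero_mul, sub_zero, add_zero]
      rcases hs.eq_or_lt with h | h
      · subst h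
        have : t = 1 := by linarith only [hst]
        subst this
        linarith
      · nlinarith only [h, h1, ht, g1]
    · simp only [Complex.add_re, Complex.real_smul, Complex.mul_re,
        Complex.ofReal_re, Complex.ofReal_im, zero_mul, sub_zero]
      rcases hs.eq_or_lt with h | h
      · subst h
        have : t = 1 := by linarith
        subst this
        linarith
      · nlinarith only [hst, h, h2, ht, g2]
    · simp only [Complex.add_im, Complex.real_smul, Complex.mul_im,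
        Complex.ofReal_re, Complex.ofReal_im, zero_mul, add_zero]
      rcases hs.eq_or_lt with h | h
      · subst h
        have : t = 1 := by linarith
        subst this
        linarith
      · nlinarith only [hst, h, h3, ht, g3]
  exact ⟨hne, hconv.isPreconnected⟩

theorem mem_disc_Tri {a : ℝ} (ha : 0 < a) (x : Site) :
    x ∈ disc Tri a ↔ 0 < x.1 + x.2 ∧ a * x.1 < 1 ∧ a * x.2 < 1 := by
  rw [mem_disc Tri_bounded ha]
  show (0 < a * (x.1 : ℝ) + a * x.2 ∧ a * (x.1 : ℝ) < 1 ∧ a * (x.2 : ℝ) < 1) ↔ _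
  rw [← mul_add]
  constructor
  · rintro ⟨h1, h2, h3⟩
    refine ⟨?_, h2, h3⟩
    have := (mul_pos_iff_of_pos_left ha).1 h1
    exact_mod_cast this
  · rintro ⟨h1, h2, h3⟩
    refine ⟨?_, h2, h3⟩
    have h4 : (0:ℝ) < (x.1:ℝ) + x.2 := by exact_mod_cast h1
    positivity

/-- the lattice point below `z`, shifted by `d`, converges to `z` -/
theorem near_point (z : ℂ) (d : Site) {a : ℝ} (ha : 0 < a) :
    dist (⟨a * ((fl a z + d).1 : ℤ), a * ((fl a z + d).2 : ℤ)⟩ : ℂ) z
      ≤ a * (2 + |(d.1 : ℝ)| + |(d.2 : ℝ)|) := by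
  have aux : ∀ (r : ℝ) (n : ℤ), |a * ((⌊r / a⌋ + n : ℤ) : ℝ) - r| ≤ a * (1 + |(n:ℝ)|) := by
    intro r n
    have h1 := Int.floor_le (r / a)
    have h2 := Int.lt_floor_add_one (r / a)
    have e1 : a * ((⌊r / a⌋ + n : ℤ) : ℝ) - r = a * ((⌊r / a⌋ : ℝ) - r / a) + a * n := by
      push_cast
      field_simp
      ring
    rw [e1]
    refine (abs_add_le _ _).trans ?_
    rw [abs_mul, abs_mul, abs_of_pos ha, mul_add, mul_one]
    have h3 : |(⌊r / a⌋ : ℝ) - r / a| ≤ 1 := by rw [abs_le]; constructor <;> linarith only [h1, h2]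
    gcongr
    nlinarith only [ha, h3]
  rw [dist_eq_norm]
  refine (Complex.norm_le_abs_re_add_abs_im _).trans ?_
  have h1 := aux z.re d.1
  have h2 := aux z.im d.2
  simp only [Complex.sub_re, Complex.sub_im, fl, Prod.fst_add, Prod.snd_add]
  linarith

theorem eventually_mem_disc {D : Set ℂ} (hD : Bornology.IsBounded D) (ho : IsOpen D) {z : ℂ}
    (hz : z ∈ D) (d : Site) : ∀ᶠ a in 𝓝[>] (0:ℝ), fl a z + d ∈ disc D a := by
  obtain ⟨ε, hε, hball⟩ := Metric.isOpen_iff.1 ho z hz
  set C : ℝ := 2 + |(d.1 : ℝ)| + |(d.2 : ℝ)| with hC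
  have hC0 : 0 < C := by (clear * -; positivity)
  have h1 : ∀ᶠ a in 𝓝[>] (0:ℝ), a < ε / C :=
    eventually_nhdsWithin_of_eventually_nhds (gt_mem_nhds (by (clear * - hε; positivity)))
  filter_upwards [h1, self_mem_nhdsWithin] with a ha1 ha
  have ha : 0 < a := ha
  rw [mem_disc hD ha]
  apply hball
  rw [Metric.mem_ball]
  refine (near_point z d ha).trans_lt ?_
  rw [lt_div_iff₀ hC0] at ha1
  exact ha1

theorem eventually_mem_disc' {D : Set ℂ} (hD : Bornology.IsBounded D) (ho : IsOpen D) {z : ℂ}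
    (hz : z ∈ D) : ∀ᶠ a in 𝓝[>] (0:ℝ), fl a z ∈ disc D a := by
  have := eventually_mem_disc hD ho hz 0
  simpa using this

/-- eventually the site below an interior point is in row `> 3` -/
theorem eventually_row {z : ℂ} (hz : z ∈ Tri) :
    ∀ᶠ a in 𝓝[>] (0:ℝ), 3 < (fl a z).1 + (fl a z).2 := by
  have h1 : ∀ᶠ a in 𝓝[>] (0:ℝ), a < (z.re + z.im) / 5 :=
    eventually_nhdsWithin_of_eventually_nhds (gt_mem_nhds (by have := hz.1; positivity))
  filter_upwards [h1, self_mem_nhdsWithin] with a ha1 ha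
  have ha : 0 < a := ha
  have h2 := Int.lt_floor_add_one (z.re / a)
  have h3 := Int.lt_floor_add_one (z.im / a)
  have h4 : 5 < z.re / a + z.im / a := by
    rw [← add_div, lt_div_iff₀ ha]; linarith only [ha1]
  have h5 : (3:ℝ) < ((⌊z.re / a⌋ + ⌊z.im / a⌋ : ℤ) : ℝ) := by push_cast; linarith only [h2, h3, h4]
  exact_mod_cast h5

/-- a window -/
noncomputable def win (Λ : Finset Site) : Finset Site :=
  Λ ∪ Λ.biUnion fun u => (Finset.Icc (u.1 - 3) (u.1 + 3)) ×ˢ (Finset.Icc (u.2 - 3) (u.2 + 3))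

theorem window_win (Λ : Finset Site) : Window Λ (win Λ) := by
  refine ⟨Finset.subset_union_left, fun u hu v hv => ?_⟩
  refine Finset.mem_union_right _ (Finset.mem_biUnion.2 ⟨u, hu, ?_⟩)
  unfold dsq at hv
  have h1 : (u.1 - v.1) ^ 2 ≤ 5 := by nlinarith [sq_nonneg (u.2 - v.2)]
  have h2 : (u.2 - v.2) ^ 2 ≤ 5 := by nlinarith only [hv]
  rw [Finset.mem_product, Finset.mem_Icc, Finset.mem_Icc]
  refine ⟨⟨?_, ?_⟩, ⟨?_, ?_⟩⟩ <;> nlinarith only [hv]

end Vale.Agent.P144
end
end

section

section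

namespace Vale.Agent.P144

open Finset Filter Topology

theorem inter_pair {Λ : Finset Site} (u v : Site) :
    ((({u, v} : Finset Site) ∩ Λ).Nonempty) ↔ (u ∈ Λ ∨ v ∈ Λ) ∧ True ∧ True := by
  constructor
  · rintro ⟨x, hx⟩
    rw [Finset.mem_inter, Finset.mem_insert, Finset.mem_singleton] at hx
    obtain ⟨rfl | rfl, h⟩ := hx
    · exact ⟨Or.inl h, trivial, trivial⟩
    · exact ⟨Or.inr h, trivial, trivial⟩
  · rintro ⟨h | h, _, _⟩
    · exact ⟨u, by simp [h]⟩
    · exact ⟨v, by simp [h]⟩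

theorem inter_pair' {Λ : Finset Site} (u v : Site) :
    ((({u, v} : Finset Site) ∩ Λ).Nonempty ∧ ∀ x ∈ ({u, v} : Finset Site), 0 < x.1 + x.2)
      ↔ (u ∈ Λ ∨ v ∈ Λ) ∧ 0 < u.1 + u.2 ∧ 0 < v.1 + v.2 := by
  rw [inter_pair]
  simp only [and_true, Finset.mem_insert, Finset.mem_singleton, forall_eq_or_imp, forall_eq]

/-- fixed boundary conditions as a finite Ising model -/
theorem gibbs_knight (J lam β : ℝ) {Λ W : Finset Site} (hW : Window Λ W) (η : Config)
    (F : Config → ℝ) :
    gibbs J lam Vk β (some η) Λ F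
      = ev (KK β J lam Λ) (fun i : Λ => β * fld J lam Λ W (fun _ => True) η i)
          (fun s => F (exs Λ η s)) :=
  expect_eq_ev (Phi_pair J lam) (fun _ h => Phi_supp h) hW (fun u v => inter_pair u v)
    (fun _ _ => trivial) η F

theorem gibbs_zero (J β : ℝ) {Λ W : Finset Site} (hW : Window Λ W) (η : Config)
    (F : Config → ℝ) :
    gibbs J 0 (fun _ => 0) β (some η) Λ F
      = ev (KK β J 0 Λ) (fun i : Λ => β * fld J 0 Λ W (fun _ => True) η i)
          (fun s => F (exs Λ η s)) :=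
  expect_eq_ev (Phi_pair0 J) (fun _ h => Phi_supp0 h) hW (fun u v => inter_pair u v)
    (fun _ _ => trivial) η F

theorem plusFree_eq (J : ℝ) {a : ℝ} {W : Finset Site} (hW : Window (disc Tri a) W)
    (hΛ : ∀ x ∈ disc Tri a, 0 < x.1 + x.2) (F : Config → ℝ) :
    plusFree J a F
      = ev (KK (Kc / J) J 0 (disc Tri a))
          (fun i : disc Tri a => (Kc / J) * fld J 0 (disc Tri a) W (fun v => 0 < v.1 + v.2) bcp i)
          (fun s => F (exs (disc Tri a) bcp s)) :=
  expect_eq_ev (Phi_pair0 J) (fun _ h => Phi_supp0 h) hW (fun u v => inter_pair' u v)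
    hΛ bcp F

/-- the comparison of the three boundary conditions in the perturbed model -/
theorem compare_Tri {J lam β : ℝ} (hJ : 0 < J) (hl : 0 < lam) (hβ : 0 < β) :
    ∃ t : ℝ, 0 < t ∧ ∀ a : ℝ, 0 < a → ∀ x : Site, x ∈ disc Tri a → 3 < x.1 + x.2 →
      t * (gibbs J lam Vk β (some bcp) (disc Tri a) (fun σ => sp (σ x))
          - gibbs J lam Vk β (some bc0) (disc Tri a) (fun σ => sp (σ x)))
        ≤ gibbs J lam Vk β (some bc1) (disc Tri a) (fun σ => sp (σ x))
          - gibbs J lam Vk β (some bc0) (disc Tri a) (fun σ => sp (σ x)) := by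
  set ε := β * (2 * lam) with hε
  set L := β * (2 * J + 4 * lam) with hL
  set κ := β * J with hκ
  set X := β * (4 * J + 8 * lam) + ε + β * (4 * J + 8 * lam) with hX
  have hε0 : 0 < ε := by positivity
  have hL0 : 0 ≤ L := by positivity
  have hκ0 : 0 < κ := by positivity
  refine ⟨tpar ε L κ X, tpar_pos hε0 hL0 hκ0 X, fun a ha x hx hx3 => ?_⟩
  set Λ := disc Tri a with hΛdef
  have hΛ : ∀ x ∈ Λ, 0 < x.1 + x.2 := fun x hx => ((mem_disc_Tri ha x).1 hx).1
  have hW := window_win Λ
  set W := win Λ with hWdef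
  rw [gibbs_knight J lam β hW, gibbs_knight J lam β hW, gibbs_knight J lam β hW]
  simp only [exs_mem hx]
  -- the finite model
  set K := KK β J lam Λ with hK
  have hK0 : ∀ i j, 0 ≤ K i j := fun i j => by
    have := cpl_nonneg hJ.le hl.le (i : Site) (j : Site)
    simp only [hK, KK]; (clear * - hβ this; positivity)
  set k : Λ → ℝ := fun i => β * fld J lam Λ W (fun _ => True) bc0 i with hk
  have hk0 : ∀ i, 0 ≤ k i := fun i =>
    mul_nonneg hβ.le (fld_bc0_nonneg hJ.le hl.le hW hΛ i.2)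
  set R1 : Finset Λ := univ.filter fun i : Λ => (i : Site).1 + (i : Site).2 = 1 with hR1
  set R2 : Finset Λ := univ.filter fun i : Λ => (i : Site).1 + (i : Site).2 = 2 with hR2
  set R3 : Finset Λ := univ.filter fun i : Λ => (i : Site).1 + (i : Site).2 = 3 with hR3
  have m1 : ∀ i : Λ, i ∈ R1 ↔ (i : Site).1 + (i : Site).2 = 1 := fun i => by simp only [hR1, univ_eq_attach, mem_filter, mem_attach, true_and]
  have m2 : ∀ i : Λ, i ∈ R2 ↔ (i : Site).1 + (i : Site).2 = 2 := fun i => by simp only [hR2, univ_eq_attach, mem_filter, mem_attach, true_and]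
  have m3 : ∀ i : Λ, i ∈ R3 ↔ (i : Site).1 + (i : Site).2 = 3 := fun i => by simp only [hR3, univ_eq_attach, mem_filter, mem_attach, true_and]
  have h12 : Disjoint R1 R2 := Finset.disjoint_left.2 fun i h h' => by
    rw [m1] at h; rw [m2] at h'; omega
  have h23 : Disjoint R2 R3 := Finset.disjoint_left.2 fun i h h' => by
    rw [m2] at h; rw [m3] at h'; omega
  have hshift : ∀ i : Λ, i ∈ R3 → (((i : Site).1 - 1, (i : Site).2) : Site) ∈ Λ := by
    intro i hi
    rw [m3] at hi
    obtain ⟨g1, g2, g3⟩ := (mem_disc_Tri ha _).1 i.2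
    refine (mem_disc_Tri ha _).2 ⟨by simp only; omega, ?_, g3⟩
    simp only
    push_cast
    linarith
  set ρ : Λ → Λ := fun i => if h : (((i : Site).1 - 1, (i : Site).2) : Site) ∈ Λ
    then ⟨_, h⟩ else i with hρdef
  have hρv : ∀ i : Λ, i ∈ R3 → (ρ i : Site) = ((i : Site).1 - 1, (i : Site).2) := by
    intro i hi
    simp only [hρdef]
    rw [dif_pos (hshift i hi)]
  have hρ : ∀ u ∈ R3, ρ u ∈ R2 ∧ κ ≤ K (ρ u) u + K u (ρ u) ∧ (⟨x, hx⟩ : Λ) ≠ ρ u := by
    intro u hu
    have hv := hρv u hu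
    have hu' := (m3 u).1 hu
    refine ⟨?_, ?_, ?_⟩
    · rw [m2, hv]; simp only; omega
    · have hc : cpl J lam (ρ u : Site) (u : Site) = J := by
        unfold cpl
        rw [if_pos]
        rw [hv]; simp only [dsq, sub_sub_cancel_left, Int.reduceNeg, even_two, Even.neg_pow, one_pow, sub_self, ne_eq, OfNat.ofNat_ne_zero, not_false_eq_true, zero_pow, add_zero]
      have hc' : cpl J lam (u : Site) (ρ u : Site) = J := by rw [cpl_comm, hc]
      simp only [hK, KK, hc, hc', hκ]
      linarith only []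
    · intro h
      have h' : x = (ρ u : Site) := congrArg Subtype.val h
      rw [hv] at h'
      rw [h'] at hx3
      simp only at hx3
      omega
  have hinj : Set.InjOn ρ R3 := by
    intro u hu v hv h
    have h' : (ρ u : Site) = (ρ v : Site) := congrArg Subtype.val h
    rw [hρv u hu, hρv v hv] at h'
    apply Subtype.ext
    have h1 := (Prod.ext_iff.1 h').1
    have h2 := (Prod.ext_iff.1 h').2
    simp only at h1 h2
    exact Prod.ext (by omega) h2
  have hXb : ∀ v, k v + ε + ∑ j ∈ univ.erase v, (K v j + K j v) ≤ X := by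
    intro v
    have b1 : k v ≤ β * (4 * J + 8 * lam) := by
      simp only [hk]
      exact mul_le_mul_of_nonneg_left (fld_le hJ.le hl.le hW _ _ v.2) hβ.le
    have b2 : ∑ j ∈ univ.erase v, (K v j + K j v) ≤ β * (4 * J + 8 * lam) := by
      calc ∑ j ∈ univ.erase v, (K v j + K j v) ≤ ∑ j, (K v j + K j v) :=
            Finset.sum_le_sum_of_subset_of_nonneg (Finset.erase_subset _ _)
              fun i _ _ => add_nonneg (hK0 _ _) (hK0 _ _)
        _ = β * ∑ j : Λ, cpl J lam (v : Site) (j : Site) := by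
            rw [Finset.mul_sum]
            refine Finset.sum_congr rfl fun j _ => ?_
            simp only [hK, KK]
            rw [cpl_comm J lam (j : Site) (v : Site)]
            ring
        _ = β * ∑ j ∈ Λ, cpl J lam (v : Site) j := by
            rw [Finset.sum_coe_sort Λ (fun j => cpl J lam (v : Site) j)]
        _ ≤ β * ∑ j ∈ W, cpl J lam (v : Site) j := by
            gcongr
            · exact fun i _ _ => cpl_nonneg hJ.le hl.le _ _
            · exact hW.1
        _ = β * (4 * J + 8 * lam) := by rw [cpl_sum_le J lam hW v.2]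
    linarith only [b1, b2]
  have key := compare hK0 hk0 h12 h23 hε0 hL0 hκ0 hρ hinj hXb
  have ep : (fun i : Λ => β * fld J lam Λ W (fun _ => True) bcp i)
      = fun i => k i + (L * (if i ∈ R1 then 1 else 0)
        + ε * (if i ∈ R2 then 1 else 0) + ε * (if i ∈ R3 then 1 else 0)) := by
    funext i
    have := fld_plus_sub_bc0 J lam hW hΛ i.2
    simp only [m1, m2, m3, hk, hL, hε]
    linear_combination β * this
  have e1 : (fun i : Λ => β * fld J lam Λ W (fun _ => True) bc1 i)
      = fun i => k i + (ε * (if i ∈ R1 then 1 else 0) + ε * (if i ∈ R2 then 1 else 0)) := by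
    funext i
    have := fld_bc1_sub_bc0 J lam hW hΛ i.2
    simp only [m1, m2, hk, hε]
    linear_combination β * this
  rw [ep, e1]
  exact key

/-- plus dominates `bc0` -/
theorem mono_Tri {J lam β : ℝ} (hJ : 0 < J) (hl : 0 < lam) (hβ : 0 < β) {a : ℝ} (ha : 0 < a)
    {x : Site} (hx : x ∈ disc Tri a) :
    gibbs J lam Vk β (some bc0) (disc Tri a) (fun σ => sp (σ x))
      ≤ gibbs J lam Vk β (some bcp) (disc Tri a) (fun σ => sp (σ x)) := by
  have hΛ : ∀ x ∈ disc Tri a, 0 < x.1 + x.2 := fun x hx => ((mem_disc_Tri ha x).1 hx).1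
  have hW := window_win (disc Tri a)
  rw [gibbs_knight J lam β hW, gibbs_knight J lam β hW]
  simp only [exs_mem hx]
  refine ev_mono_field (fun i j => ?_) (sg_mono (⟨x, hx⟩ : disc Tri a)) fun i => ?_
  · have := cpl_nonneg hJ.le hl.le (i : Site) (j : Site)
    simp only [KK]; (clear * - hβ this; positivity)
  · have := fld_plus_sub_bc0 J lam hW hΛ i.2
    refine mul_le_mul_of_nonneg_left ?_ hβ.le
    rw [← sub_nonneg, this]
    have i1 : ∀ (p : Prop) [Decidable p], (0:ℝ) ≤ if p then 1 else 0 := fun p _ => by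
      split_ifs <;> norm_num
    have := i1 ((i : Site).1 + (i : Site).2 = 1)
    have := i1 ((i : Site).1 + (i : Site).2 = 2)
    have := i1 ((i : Site).1 + (i : Site).2 = 3)
    (clear * - hJ hl; positivity)

end Vale.Agent.P144
end
end

section

section

namespace Vale.Agent.P144

open Finset Filter Topology

/-- `F` only looks at the spins in `Λ` -/
def Local (Λ : Finset Site) (F : Config → ℝ) : Prop :=
  ∀ σ τ : Config, (∀ x ∈ Λ, σ x = τ x) → F σ = F τ

theorem corr_congr {a : ℝ} {E E' : (Config → ℝ) → ℝ} {Λ : Finset Site}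
    (hE : ∀ F, Local Λ F → E F = E' F) {p : Pts} (hx : ∀ i, fl a (p.x i) ∈ Λ)
    (hy : ∀ k, fl a (p.y k) ∈ Λ) (hy' : ∀ k, fl a (p.y k) + dir (p.j k) ∈ Λ) :
    corr a E p = corr a E' p := by
  have h1 : ∀ k, E (fun τ => sp (τ (fl a (p.y k))) * sp (τ (fl a (p.y k) + dir (p.j k))))
      = E' (fun τ => sp (τ (fl a (p.y k))) * sp (τ (fl a (p.y k) + dir (p.j k)))) := fun k =>
    hE _ fun σ τ h => by rw [h _ (hy k), h _ (hy' k)]
  unfold corr
  simp only [h1]
  refine hE _ fun σ τ h => ?_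
  congr 1
  · exact Finset.prod_congr rfl fun i _ => by rw [h _ (hx i)]
  · exact Finset.prod_congr rfl fun k _ => by rw [h _ (hy k), h _ (hy' k)]

theorem local_ext {Λ : Finset Site} {F : Config → ℝ} (hF : Local Λ F) (η η' : Config)
    (s : Λ → Bool) : F (exs Λ η s) = F (exs Λ η' s) :=
  hF _ _ fun x hx => by rw [exs_mem hx, exs_mem hx]

/-- At `λ = 0` the conditions `bc0` and `bc1` are plus on the legs and free on the hypotenuse. -/
theorem zero_eq_plusFree (J : ℝ) {a : ℝ} (ha : 0 < a) (η : Config) (hη : η = bc0 ∨ η = bc1)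
    (F : Config → ℝ) (hF : Local (disc Tri a) F) :
    gibbs J 0 (fun _ => 0) (Kc / J) (some η) (disc Tri a) F = plusFree J a F := by
  have hΛ : ∀ x ∈ disc Tri a, 0 < x.1 + x.2 := fun x hx => ((mem_disc_Tri ha x).1 hx).1
  have hW := window_win (disc Tri a)
  rw [gibbs_zero J _ hW, plusFree_eq J hW hΛ]
  have e : (fun i : disc Tri a => Kc / J * fld J 0 (disc Tri a) (win (disc Tri a))
        (fun _ => True) η i)
      = fun i : disc Tri a => Kc / J * fld J 0 (disc Tri a) (win (disc Tri a))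
        (fun v => 0 < v.1 + v.2) bcp i := by
    funext i
    rcases hη with rfl | rfl
    · rw [fld_bc0 J 0 hW hΛ i.2]
    · rw [fld_bc1_zero J hW hΛ i.2, fld_bc0 J 0 hW hΛ i.2]
  rw [e]
  congr 1
  funext s
  exact local_ext hF _ _ s

theorem lim_of_plusFree {J : ℝ} (η : Config) (hη : η = bc0 ∨ η = bc1) {p : Pts}
    (hp : Good Tri p) {c : ℝ} (h : Lim (plusFree J) p c) :
    Lim (crit J Tri (some fun _ => η)) p c := by
  refine h.congr' ?_
  have h1 : ∀ᶠ a in 𝓝[>] (0:ℝ), ∀ i, fl a (p.x i) ∈ disc Tri a :=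
    Filter.eventually_all.2 fun i => eventually_mem_disc' Tri_bounded Tri_open (hp.2.1 i)
  have h2 : ∀ᶠ a in 𝓝[>] (0:ℝ), ∀ k, fl a (p.y k) ∈ disc Tri a :=
    Filter.eventually_all.2 fun k => eventually_mem_disc' Tri_bounded Tri_open (hp.2.2.1 k)
  have h3 : ∀ᶠ a in 𝓝[>] (0:ℝ), ∀ k, fl a (p.y k) + dir (p.j k) ∈ disc Tri a :=
    Filter.eventually_all.2 fun k => eventually_mem_disc Tri_bounded Tri_open (hp.2.2.1 k) _
  filter_upwards [h1, h2, h3, self_mem_nhdsWithin] with a g1 g2 g3 ha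
  exact (corr_congr (fun F hF => zero_eq_plusFree J ha η hη F hF) g1 g2 g3).symm

theorem gibbs_const_mul (J lam : ℝ) (V : Finset Site → ℝ) (β : ℝ) (η : Config)
    (Λ : Finset Site) (c : ℝ) (F : Config → ℝ) :
    gibbs J lam V β (some η) Λ (fun σ => c * F σ) = c * gibbs J lam V β (some η) Λ F := by
  unfold gibbs expect
  simp only [mul_assoc, ← Finset.mul_sum, mul_div_assoc]

theorem one_point (J lam : ℝ) (V : Finset Site → ℝ) (β : ℝ) (η : Config)
    (Λ : Finset Site) (a : ℝ) (z : ℂ) :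
    corr a (gibbs J lam V β (some η) Λ) ⟨1, 0, ![z], ![], ![]⟩
      = a ^ (-(1 / 8) : ℝ) * gibbs J lam V β (some η) Λ (fun σ => sp (σ (fl a z))) := by
  unfold corr
  simp only [Finset.univ_unique, Finset.prod_singleton, Finset.univ_eq_empty, Finset.prod_empty,
    mul_one]
  exact gibbs_const_mul _ _ _ _ _ _ _ _

theorem good_one {z : ℂ} (hz : z ∈ Tri) : Good Tri ⟨1, 0, ![z], ![], ![]⟩ := by
  refine ⟨one_pos, fun i => ?_, fun k => k.elim0, ?_⟩
  · have : i = 0 := Subsingleton.elim _ _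
    subst this
    exact hz
  · intro a b _
    rcases a with a | a
    · rcases b with b | b
      · exact congrArg Sum.inl (Subsingleton.elim a b)
      · exact b.elim0
    · exact a.elim0

/-- No data exist for the knight-move potential and any `λ > 0`. -/
theorem no_data {J : ℝ} (hJ : 0 < J) (hCHI : CHI J) {lam : ℝ} (hl : 0 < lam) :
    ¬ HasData J Vk lam := by
  rintro ⟨β, hβ, Zσ, hZσ, Zε, _, _, hD⟩
  obtain ⟨hP, hM, z, hz, c₁, c₂, hne, hc₁, hc₂⟩ := hCHI
  have hE : ∀ η : Config, (η = bc0 ∨ η = bc1) → AllLim Tri (crit J Tri (some fun _ => η)) := by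
    intro η hη p hp
    obtain ⟨c, hc⟩ := hM p hp
    exact ⟨c, lim_of_plusFree η hη hp hc⟩
  have hz1 := good_one hz
  have Tp := hD Tri Tri_open Tri_connected Tri_bounded _ hP _ hz1 c₁ hc₁
  have T0 := hD Tri Tri_open Tri_connected Tri_bounded _ (hE bc0 (Or.inl rfl)) _ hz1 c₂
    (lim_of_plusFree bc0 (Or.inl rfl) hz1 hc₂)
  have T1 := hD Tri Tri_open Tri_connected Tri_bounded _ (hE bc1 (Or.inr rfl)) _ hz1 c₂
    (lim_of_plusFree bc1 (Or.inr rfl) hz1 hc₂)
  have Tp' : Tendsto (fun a => a ^ (-(1 / 8) : ℝ) * gibbs J lam Vk β (some bcp) (disc Tri a)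
      (fun σ => sp (σ (fl a z)))) (𝓝[>] 0) (𝓝 (Zσ ^ 1 * Zε ^ 0 * c₁)) :=
    Tp.congr fun a => one_point _ _ _ _ _ _ _ _
  have T0' : Tendsto (fun a => a ^ (-(1 / 8) : ℝ) * gibbs J lam Vk β (some bc0) (disc Tri a)
      (fun σ => sp (σ (fl a z)))) (𝓝[>] 0) (𝓝 (Zσ ^ 1 * Zε ^ 0 * c₂)) :=
    T0.congr fun a => one_point _ _ _ _ _ _ _ _
  have T1' : Tendsto (fun a => a ^ (-(1 / 8) : ℝ) * gibbs J lam Vk β (some bc1) (disc Tri a)
      (fun σ => sp (σ (fl a z)))) (𝓝[>] 0) (𝓝 (Zσ ^ 1 * Zε ^ 0 * c₂)) :=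
    T1.congr fun a => one_point _ _ _ _ _ _ _ _
  obtain ⟨t, ht, hcomp⟩ := compare_Tri hJ hl hβ
  have hmem := eventually_mem_disc' Tri_bounded Tri_open hz
  have hrow := eventually_row hz
  have hpow : ∀ a : ℝ, 0 < a → 0 < a ^ (-(1 / 8) : ℝ) := fun a ha => Real.rpow_pos_of_pos ha _
  have le1 : t * (Zσ ^ 1 * Zε ^ 0 * c₁ - Zσ ^ 1 * Zε ^ 0 * c₂)
      ≤ Zσ ^ 1 * Zε ^ 0 * c₂ - Zσ ^ 1 * Zε ^ 0 * c₂ := by
    refine le_of_tendsto_of_tendsto ((Tp'.sub T0').const_mul t) (T1'.sub T0') ?_
    filter_upwards [hmem, hrow, self_mem_nhdsWithin] with a g1 g2 ha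
    have ha : 0 < a := ha
    have := mul_le_mul_of_nonneg_left (hcomp a ha (fl a z) g1 g2) (hpow a ha).le
    linarith
  have le2 : Zσ ^ 1 * Zε ^ 0 * c₂ ≤ Zσ ^ 1 * Zε ^ 0 * c₁ := by
    refine le_of_tendsto_of_tendsto T0' Tp' ?_
    filter_upwards [hmem, self_mem_nhdsWithin] with a g1 ha
    exact mul_le_mul_of_nonneg_left (mono_Tri hJ hl hβ ha g1) (hpow a ha).le
  simp only [pow_one, pow_zero, mul_one, sub_self] at le1 le2
  have h3 : Zσ * c₁ - Zσ * c₂ ≤ 0 := by
    by_contra h
    push Not at h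
    have := mul_pos ht h
    linarith
  have h4 : Zσ * c₁ = Zσ * c₂ := by linarith
  exact hne (mul_left_cancel₀ hZσ h4)

end Vale.Agent.P144
end
end
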